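import Vale.Agent.P241.Bdl.K_F_Defs
import Mathlib.Data.ENat.Lattice

namespace Vale.Agent.P241.F

/-- `E`-acyclicity of `X ^ H` forces `F`-acyclicity of `X ^ L` for all finite `G`-complexes `X`. -/
def Forces (E F : Homology) {G : FiniteGrp} (H L : Subgroup G) : Prop :=
  ∀ X : GCx G, X.IsFin → FixAcyclic E X H → FixAcyclic F X L

/-- `τ H` is the chromatic type of `X ^ H`: the least `m` with `K m (X ^ H) ≠ 0` (or `∞`). -/
def IsType (K : ℕ → Homology) {G : FiniteGrp} (X : GCx G) (τ : Subgroup G → ℕ∞) : Prop :=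
  ∀ (H : Subgroup G) (m : ℕ), FixAcyclic (K m) X H ↔ (m : ℕ∞) < τ H

/-- There is a chain of length `s` from `H` to `L`, each group normal in the next with cyclic
quotient of `p`-power order. -/
def PChain (p : ℕ) {G : Type} [Group G] (H L : Subgroup G) (s : ℕ) : Prop :=
  ∃ c : ℕ → Subgroup G, c 0 = H ∧ c s = L ∧
    ∀ i < s, ∃ x ∈ Subgroup.normalizer (c i : Set G),
      (∃ k : ℕ, x ^ p ^ k ∈ c i) ∧ c (i + 1) = c i ⊔ Subgroup.zpowers x

/-- The gluing of `q` triangles `i ∈ ℤ / q` with vertices `0, 1, 2`: the edge `12` of the triangle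
`i` is the edge `02` of the triangle `i + 1`, and all the edges `01` are identified. -/
def mooreRel (q n : ℕ) (x y : ZMod q × (Fin (n + 1) →o Fin 3)) : Prop :=
  (y.1 = x.1 + 1 ∧ (∀ k, x.2 k ≠ 0) ∧ ∀ k, y.2 k = if x.2 k = 1 then 0 else 2) ∨
    ((∀ k, x.2 k ≠ 2) ∧ x.2 = y.2)

/-- The Moore space `S¹ ∪_q e²`: a `q`-gon, triangulated from its centre, whose `q` sides are
identified to one circle. -/
def Moore (q : ℕ) : BSS where
  S n := Quot (mooreRel q n)
  pt n := Quot.mk _ (0, OrderHom.const _ 0)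
  op {m n} a := Quot.map (fun x => (x.1, x.2.comp a)) (by
    rintro x y (⟨h1, h2, h3⟩ | ⟨h1, h2⟩)
    · exact Or.inl ⟨h1, fun k => h2 _, fun k => h3 _⟩
    · exact Or.inr ⟨fun k => h1 _, by rw [h2]⟩)
  op_pt _ := rfl
  op_id x := by
    induction x using Quot.ind
    rfl
  op_comp a b x := by
    induction x using Quot.ind
    rfl

/-- `p`-locality: `K i` vanishes on the Moore spaces `S¹ ∪_q e²` for the primes `q ≠ p`. -/
def PLocal (p : ℕ) (K : ℕ → Homology) : Prop :=
  ∀ i q : ℕ, q.Prime → q ≠ p → (K i).Acyclic (Moore q)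

end Vale.Agent.P241.F
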