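import Vale.Agent.P241.Bdl.B2

set_option linter.all false
set_option autoImplicit false

namespace Vale.Agent.P241.F

/-! ### Formal properties of acyclicity -/

theorem acyclic_ptBSS (E : Homology) : E.Acyclic ptBSS := by
  intro j x
  rw [E.eq_zero_iff]
  exact ⟨x, E.map_id j _ (fun _ _ => rfl) x⟩

theorem acyclic_of_subsingleton (E : Homology) {X : BSS} (h : ∀ n (x : X.S n), x = X.pt n) :
    E.Acyclic X := by
  refine (E.acyclic_iff_of_bijective (ptMap X) fun n => ⟨fun a b _ => rfl, fun x => ?_⟩).1
    (acyclic_ptBSS E)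
  exact ⟨(), (h n x).symm⟩

theorem acyclic_of_cofiber (E : Homology) {A X Q : BSS} (i : Map A X) (q : Map X Q)
    (h : IsCofiber i q) (hA : E.Acyclic A) (hQ : E.Acyclic Q) : E.Acyclic X := by
  obtain ⟨δ, hδ⟩ := E.exact i q h
  intro j x
  obtain ⟨a, rfl⟩ := ((hδ j).1 x).1 (hQ j _)
  rw [hA j a, E.map_zero]

theorem acyclic_of_retract (E : Homology) {X Y : BSS} (f : Map X Y) (g : Map Y X)
    (h : ∀ n x, g.f n (f.f n x) = x) (hY : E.Acyclic Y) : E.Acyclic X := by
  intro j x
  have h1 : E.map j (idMap X) x = E.map j g (E.map j f x) :=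
    E.map_comp j f g (idMap X) (fun n x => (h n x).symm) x
  rw [E.map_id j (idMap X) (fun _ _ => rfl)] at h1
  rw [h1, hY j (E.map j f x), E.map_zero]

/-- A based simplicial subset. -/
def subB (W : BSS) (P : ∀ n, W.S n → Prop) (h0 : ∀ n, P n (W.pt n))
    (h1 : ∀ {m n} (a : Op m n) w, P n w → P m (W.op a w)) : BSS where
  S n := {w : W.S n // P n w}
  pt n := ⟨W.pt n, h0 n⟩
  op a w := ⟨W.op a w.1, h1 a w.1 w.2⟩
  op_pt a := Subtype.ext (W.op_pt a)
  op_id w := Subtype.ext (W.op_id w.1)
  op_comp a b w := Subtype.ext (W.op_comp a b w.1)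

/-- A decomposition of `W` as a wedge. -/
structure Decomp (W : BSS) (T : Type) (D : T → ∀ n, W.S n → Prop) : Prop where
  pt : ∀ t n, D t n (W.pt n)
  op : ∀ t {m n} (a : Op m n) w, D t n w → D t m (W.op a w)
  cover : ∀ n w, ∃ t, D t n w
  disj : ∀ t t' n w, D t n w → D t' n w → t ≠ t' → w = W.pt n

/-- A summand. -/
def Decomp.part {W : BSS} {T : Type} {D : T → ∀ n, W.S n → Prop} (h : Decomp W T D) (t : T) :
    BSS := subB W (D t) (h.pt t) (h.op t)

/-- A sum of summands. -/
def Decomp.parts {W : BSS} {T : Type} {D : T → ∀ n, W.S n → Prop} (h : Decomp W T D)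
    (U : Set T) : BSS :=
  subB W (fun n w => w = W.pt n ∨ ∃ t ∈ U, D t n w) (fun n => Or.inl rfl) (by
    rintro m n a w (rfl | ⟨t, ht, hw⟩)
    · exact Or.inl (W.op_pt a)
    · exact Or.inr ⟨t, ht, h.op t a w hw⟩)

theorem Decomp.acyclic (E : Homology) {W : BSS} {T : Type} [Finite T]
    {D : T → ∀ n, W.S n → Prop} (h : Decomp W T D) (hE : ∀ t, E.Acyclic (h.part t)) :
    E.Acyclic W := by
  classical
  have key : ∀ U : Set T, U.Finite → E.Acyclic (h.parts U) := by
    intro U hU
    induction U, hU using Set.Finite.induction_on with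
    | empty =>
      apply acyclic_of_subsingleton
      rintro n ⟨w, hw | ⟨t, ht, _⟩⟩
      · exact Subtype.ext hw
      · exact absurd ht (Set.notMem_empty t)
    | insert htU hU ih =>
      rename_i t U
      let i : Map (h.parts U) (h.parts (insert t U)) :=
        ⟨fun n w => ⟨w.1, w.2.imp id fun ⟨s, hs, hw⟩ => ⟨s, Set.mem_insert_of_mem _ hs, hw⟩⟩,
          fun _ => rfl, fun _ _ => rfl⟩
      have hq0 : ∀ n (w : (h.parts (insert t U)).S n), ¬ D t n w.1 → w.1 ≠ W.pt n →
          ∃ s ∈ U, D s n w.1 := by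
        rintro n ⟨w, hw | ⟨s, hs, hw⟩⟩ h1 h2
        · exact absurd hw h2
        · rcases Set.mem_insert_iff.1 hs with rfl | hs
          · exact absurd hw h1
          · exact ⟨s, hs, hw⟩
      let qf : ∀ n, (h.parts (insert t U)).S n → (h.part t).S n := fun n w =>
        if hw : D t n w.1 then ⟨w.1, hw⟩ else (h.part t).pt n
      have hqpos : ∀ n w (hw : D t n w.1), qf n w = ⟨w.1, hw⟩ := fun n w hw => dif_pos hw
      have hqneg : ∀ n w (hw : ¬ D t n w.1), qf n w = (h.part t).pt n :=
        fun n w hw => dif_neg hw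
      let q : Map (h.parts (insert t U)) (h.part t) :=
        ⟨qf, fun n => hqpos n _ (h.pt t n), by
          intro m n a w
          by_cases hw : D t n w.1
          · rw [hqpos n w hw, hqpos m _ (h.op t a _ hw)]
            rfl
          · rw [hqneg n w hw, (h.part t).op_pt]
            by_cases hw' : D t m ((h.parts (insert t U)).op a w).1
            · rw [hqpos m _ hw']
              apply Subtype.ext
              change W.op a w.1 = W.pt m
              by_cases hw0 : w.1 = W.pt n
              · rw [hw0, W.op_pt]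
              · obtain ⟨s, hs, hsw⟩ := hq0 n w hw hw0
                refine h.disj t s m _ hw' (h.op s a _ hsw) ?_
                rintro rfl
                exact htU hs
            · exact hqneg m _ hw'⟩
      refine acyclic_of_cofiber E i q ?_ ih (hE t)
      intro n
      refine ⟨fun a b hab => Subtype.ext
        (congrArg (fun z : (h.parts (insert t U)).S n => z.1) hab), ?_, ?_⟩
      · rintro ⟨w, hw⟩
        exact ⟨⟨w, Or.inr ⟨t, Set.mem_insert _ _, hw⟩⟩, hqpos n _ hw⟩
      · intro x y
        have hrange : ∀ z : (h.parts (insert t U)).S n,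
            qf n z = (h.part t).pt n ↔ ∃ a, i.f n a = z := by
          intro z
          constructor
          · intro hz
            by_cases hzt : D t n z.1
            · rw [hqpos n z hzt] at hz
              have h1 : z.1 = W.pt n := congrArg Subtype.val hz
              exact ⟨⟨z.1, Or.inl h1⟩, rfl⟩
            · by_cases hz0 : z.1 = W.pt n
              · exact ⟨⟨z.1, Or.inl hz0⟩, rfl⟩
              · exact ⟨⟨z.1, Or.inr (hq0 n z hzt hz0)⟩, rfl⟩
          · rintro ⟨⟨a, ha⟩, rfl⟩
            by_cases hat : D t n a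
            · refine (hqpos n (i.f n ⟨a, ha⟩) hat).trans ?_
              apply Subtype.ext
              change a = W.pt n
              rcases ha with ha | ⟨s, hs, hsa⟩
              · exact ha
              · refine h.disj t s n _ hat hsa ?_
                rintro rfl
                exact htU hs
            · exact hqneg n (i.f n ⟨a, ha⟩) hat
        constructor
        · intro hxy
          by_cases hx : D t n x.1
          · by_cases hy : D t n y.1
            · left
              have h1 : qf n x = qf n y := hxy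
              rw [hqpos n x hx, hqpos n y hy] at h1
              exact Subtype.ext (congrArg (fun z : (h.part t).S n => z.1) h1)
            · right
              have h1 : qf n x = qf n y := hxy
              have h2 := hqneg n y hy
              exact ⟨(hrange x).1 (h1.trans h2), (hrange y).1 h2⟩
          · right
            have h1 : qf n x = qf n y := hxy
            have h2 := hqneg n x hx
            exact ⟨(hrange x).1 h2, (hrange y).1 (h1.symm.trans h2)⟩
        · rintro (rfl | ⟨h1, h2⟩)
          · rfl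
          · exact ((hrange x).2 h1).trans ((hrange y).2 h2).symm
  refine (E.acyclic_iff_of_bijective (X := h.parts Set.univ) (Y := W)
    ⟨fun n w => w.1, fun _ => rfl, fun _ _ => rfl⟩ fun n => ⟨fun a b h => Subtype.ext h, ?_⟩).1
    (key Set.univ Set.finite_univ)
  intro w
  obtain ⟨t, ht⟩ := h.cover n w
  exact ⟨⟨w, Or.inr ⟨t, trivial, ht⟩⟩, rfl⟩

/-! ### Fixed points as a subset -/

/-- The fixed points. -/
def fixB {G : FiniteGrp.{0}} (X : GCx G) (H : Subgroup G) : BSS :=
  subB X.toBSS (fun n x => ∀ g ∈ H, (X.act g).f n x = x) (fun n g _ => (X.act g).f_pt n)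
    (fun a w h g hg => by rw [(X.act g).f_op, h g hg])

/-- The inclusion of the fixed points. -/
def fixBι {G : FiniteGrp.{0}} (X : GCx G) (H : Subgroup G) : Map (fixB X H) X.toBSS :=
  ⟨fun n x => x.1, fun _ => rfl, fun _ _ => rfl⟩

theorem fixB_acyclic (E : Homology) {G : FiniteGrp.{0}} (X : GCx G) (H : Subgroup G) :
    FixAcyclic E X H ↔ E.Acyclic (fixB X H) :=
  fixAcyclic_iffF E (i := fixBι X H) fun n => ⟨fun a b h => Subtype.ext h,
    fun x => ⟨fun h => ⟨⟨x, h⟩, rfl⟩, by rintro ⟨y, rfl⟩; exact y.2⟩⟩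

/-! ### Wedges -/

/-- The wedge of a family of complexes. -/
def wedgeG {G : FiniteGrp.{0}} (ι : Type) (X : ι → GCx G) : GCx G where
  S n := {f : ∀ i, (X i).S n // ∀ i j, f i ≠ (X i).pt n → f j ≠ (X j).pt n → i = j}
  pt n := ⟨fun i => (X i).pt n, fun i j h => absurd rfl h⟩
  op {m n} a f := ⟨fun i => (X i).op a (f.1 i), fun i j hi hj => f.2 i j
    (fun h => hi (by change (X i).op a (f.1 i) = _; rw [h, (X i).op_pt]))
    (fun h => hj (by change (X j).op a (f.1 j) = _; rw [h, (X j).op_pt]))⟩
  op_pt a := Subtype.ext (funext fun i => (X i).op_pt a)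
  op_id f := Subtype.ext (funext fun i => (X i).op_id _)
  op_comp a b f := Subtype.ext (funext fun i => (X i).op_comp a b _)
  act g :=
    { f := fun n f => ⟨fun i => ((X i).act g).f n (f.1 i), fun i j hi hj => f.2 i j
        (fun h => hi (by change ((X i).act g).f n (f.1 i) = _; rw [h, ((X i).act g).f_pt]))
        (fun h => hj (by change ((X j).act g).f n (f.1 j) = _; rw [h, ((X j).act g).f_pt]))⟩
      f_pt := fun n => Subtype.ext (funext fun i => ((X i).act g).f_pt n)
      f_op := fun a f => Subtype.ext (funext fun i => ((X i).act g).f_op a _) }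
  act_one n f := Subtype.ext (funext fun i => (X i).act_one n _)
  act_mul g h n f := Subtype.ext (funext fun i => (X i).act_mul g h n _)

open Classical in
/-- The inclusion of a summand. -/
noncomputable def wedgeIn {G : FiniteGrp.{0}} {ι : Type} (X : ι → GCx G) (i : ι) {n : ℕ}
    (x : (X i).S n) : (wedgeG ι X).S n :=
  ⟨fun j => if h : j = i then h ▸ x else (X j).pt n, fun j k hj hk => by
    have h1 : ∀ j, (if h : j = i then (h ▸ x : (X j).S n) else (X j).pt n) ≠ (X j).pt n →
        j = i := by
      intro j hj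
      by_contra h
      exact hj (dif_neg h)
    rw [h1 j hj, h1 k hk]⟩

theorem wedgeIn_self {G : FiniteGrp.{0}} {ι : Type} (X : ι → GCx G) (i : ι) {n : ℕ}
    (x : (X i).S n) : (wedgeIn X i x).1 i = x := dif_pos rfl

theorem wedgeIn_ne {G : FiniteGrp.{0}} {ι : Type} (X : ι → GCx G) (i : ι) {n : ℕ}
    (x : (X i).S n) (j : ι) (h : j ≠ i) : (wedgeIn X i x).1 j = (X j).pt n := dif_neg h

theorem wedgeIn_ext {G : FiniteGrp.{0}} {ι : Type} (X : ι → GCx G) (i : ι) {n : ℕ}
    (f : (wedgeG ι X).S n) (hf : ∀ j, j ≠ i → f.1 j = (X j).pt n) :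
    wedgeIn X i (f.1 i) = f := by
  apply Subtype.ext
  funext j
  by_cases h : j = i
  · subst h
    exact wedgeIn_self X j _
  · rw [wedgeIn_ne X i _ j h, hf j h]

theorem wedgeG_isFin {G : FiniteGrp.{0}} {ι : Type} [Finite ι] (X : ι → GCx G)
    (hX : ∀ i, (X i).IsFin) : (wedgeG ι X).IsFin := by
  classical
  have hfin : ∀ i n, Finite ((X i).S n) := fun i n => (hX i).1 n
  choose d hd using fun i => (hX i).2
  obtain ⟨M, hM⟩ : ∃ M, ∀ i, d i ≤ M := by
    have := Fintype.ofFinite ι
    exact ⟨Finset.univ.sup d, fun i => Finset.le_sup (Finset.mem_univ i)⟩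
  refine ⟨fun n => ?_, M, fun n f => ?_⟩
  · have h1 : Finite (∀ i, (X i).S n) := inferInstance
    exact Subtype.finite
  · by_cases hf : ∃ i, f.1 i ≠ (X i).pt n
    · obtain ⟨i, hi⟩ := hf
      obtain ⟨k, hk, a, y, hy⟩ := hd i n (f.1 i)
      refine ⟨k, hk.trans (hM i), a, wedgeIn X i y, ?_⟩
      apply Subtype.ext
      funext j
      change (X j).op a ((wedgeIn X i y).1 j) = f.1 j
      by_cases h : j = i
      · subst h
        rw [wedgeIn_self, hy]
      · rw [wedgeIn_ne X i y j h, (X j).op_pt]
        by_contra h2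
        exact h (f.2 j i (fun h3 => h2 h3.symm) hi)
    · push Not at hf
      refine ⟨0, Nat.zero_le _, ⟨fun _ => 0, fun _ _ _ => le_rfl⟩, (wedgeG ι X).pt 0, ?_⟩
      rw [(wedgeG ι X).op_pt]
      exact Subtype.ext (funext fun i => (hf i).symm)

theorem wedgeG_acyclic (E : Homology) {G : FiniteGrp.{0}} {ι : Type} [Finite ι] [Nonempty ι]
    (X : ι → GCx G) (H : Subgroup G) (h : ∀ i, FixAcyclic E (X i) H) :
    FixAcyclic E (wedgeG ι X) H := by
  classical
  rw [fixB_acyclic]
  have hd : Decomp (fixB (wedgeG ι X) H) ι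
      (fun i n f => ∀ j, j ≠ i → f.1.1 j = (X j).pt n) := by
    refine ⟨fun i n j _ => rfl, fun i {m n} a f hf j hj => ?_, fun n f => ?_,
      fun i j n f hi hj hij => ?_⟩
    · change (X j).op a (f.1.1 j) = _
      rw [hf j hj, (X j).op_pt]
    · by_cases hf : ∃ i, f.1.1 i ≠ (X i).pt n
      · obtain ⟨i, hi⟩ := hf
        refine ⟨i, fun j hj => ?_⟩
        by_contra h2
        exact hj (f.1.2 j i h2 hi)
      · push Not at hf
        exact ⟨Classical.arbitrary ι, fun j _ => hf j⟩
    · apply Subtype.ext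
      apply Subtype.ext
      funext k
      by_cases hk : k = i
      · exact hj k (fun h => hij (hk.symm.trans h))
      · exact hi k hk
  refine hd.acyclic E fun i => ?_
  refine (E.acyclic_iff_of_bijective (X := fixB (X i) H) (Y := hd.part i)
    ⟨fun n x => ⟨⟨wedgeIn X i x.1, fun g hg => ?_⟩, fun j hj => wedgeIn_ne X i _ j hj⟩,
      fun n => ?_, fun {m n} a x => ?_⟩ fun n => ⟨fun x y hxy => ?_, ?_⟩).1
    ((fixB_acyclic E (X i) H).1 (h i))
  · apply Subtype.ext
    funext j
    change ((X j).act g).f n ((wedgeIn X i x.1).1 j) = (wedgeIn X i x.1).1 j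
    by_cases hj : j = i
    · subst hj
      rw [wedgeIn_self, x.2 g hg]
    · rw [wedgeIn_ne X i _ j hj, ((X j).act g).f_pt]
  · apply Subtype.ext
    apply Subtype.ext
    apply Subtype.ext
    funext j
    by_cases hj : j = i
    · subst hj
      exact wedgeIn_self X j _
    · exact wedgeIn_ne X i _ j hj
  · apply Subtype.ext
    apply Subtype.ext
    apply Subtype.ext
    funext j
    change (wedgeIn X i ((X i).op a x.1)).1 j = (X j).op a ((wedgeIn X i x.1).1 j)
    by_cases hj : j = i
    · subst hj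
      rw [wedgeIn_self, wedgeIn_self]
    · rw [wedgeIn_ne X i _ j hj, wedgeIn_ne X i _ j hj, (X j).op_pt]
  · have h1 : wedgeIn X i x.1 = wedgeIn X i y.1 :=
      congrArg (fun z => z.1.1) hxy
    have h2 := congrArg (fun z => z.1 i) h1
    simp only [wedgeIn_self] at h2
    exact Subtype.ext h2
  · rintro ⟨⟨f, hf⟩, hfi⟩
    refine ⟨⟨f.1 i, fun g hg => ?_⟩, ?_⟩
    · exact congrFun (congrArg Subtype.val (hf g hg)) i
    · apply Subtype.ext
      apply Subtype.ext
      exact wedgeIn_ext X i f hfi

theorem wedgeG_retract (E : Homology) {G : FiniteGrp.{0}} {ι : Type}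
    (X : ι → GCx G) (H : Subgroup G) (i : ι) (h : FixAcyclic E (wedgeG ι X) H) :
    FixAcyclic E (X i) H := by
  rw [fixB_acyclic] at h ⊢
  refine acyclic_of_retract E (X := fixB (X i) H) (Y := fixB (wedgeG ι X) H)
    ⟨fun n x => ⟨wedgeIn X i x.1, fun g hg => ?_⟩, fun n => ?_, fun {m n} a x => ?_⟩
    ⟨fun n f => ⟨f.1.1 i, fun g hg => ?_⟩, fun n => rfl, fun a f => rfl⟩
    (fun n x => Subtype.ext (wedgeIn_self X i x.1)) h
  · apply Subtype.ext
    funext j
    change ((X j).act g).f n ((wedgeIn X i x.1).1 j) = (wedgeIn X i x.1).1 j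
    by_cases hj : j = i
    · subst hj
      rw [wedgeIn_self, x.2 g hg]
    · rw [wedgeIn_ne X i _ j hj, ((X j).act g).f_pt]
  · apply Subtype.ext
    apply Subtype.ext
    funext j
    by_cases hj : j = i
    · subst hj
      exact wedgeIn_self X j _
    · exact wedgeIn_ne X i _ j hj
  · apply Subtype.ext
    apply Subtype.ext
    funext j
    change (wedgeIn X i ((X i).op a x.1)).1 j = (X j).op a ((wedgeIn X i x.1).1 j)
    by_cases hj : j = i
    · subst hj
      rw [wedgeIn_self, wedgeIn_self]
    · rw [wedgeIn_ne X i _ j hj, wedgeIn_ne X i _ j hj, (X j).op_pt]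
  · exact congrFun (congrArg Subtype.val (f.2 g hg)) i

end Vale.Agent.P241.F
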