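import Vale.Agent.P241.Sp.Ind

set_option linter.all false
set_option autoImplicit false

namespace Vale.Agent.P241.F

variable {G : FiniteGrp.{0}} (L : Subgroup G) (X : GCx (.of L))

/-- The action of an element of `L`. -/
def lact (l : G) (hl : l ∈ L) (n : ℕ) (x : X.S n) : X.S n :=
  (X.act (⟨l, hl⟩ : L)).f n x

variable {L X}

theorem lact_pt (l : G) (hl : l ∈ L) (n : ℕ) : lact L X l hl n (X.pt n) = X.pt n :=
  (X.act (⟨l, hl⟩ : L)).f_pt n

theorem lact_op (l : G) (hl : l ∈ L) {m n : ℕ} (a : Op m n) (x : X.S n) :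
    lact L X l hl m (X.op a x) = X.op a (lact L X l hl n x) :=
  (X.act (⟨l, hl⟩ : L)).f_op a x

theorem lact_mul (l l' : G) (hl : l ∈ L) (hl' : l' ∈ L) (n : ℕ) (x : X.S n) :
    lact L X (l * l') (L.mul_mem hl hl') n x = lact L X l hl n (lact L X l' hl' n x) :=
  X.act_mul (⟨l, hl⟩ : L) (⟨l', hl'⟩ : L) n x

theorem lact_one (n : ℕ) (x : X.S n) (l : G) (hl : l ∈ L) (h : l = 1) :
    lact L X l hl n x = x := by
  subst h
  exact X.act_one n x

theorem lact_congr {l l' : G} (h : l = l') (hl : l ∈ L) (hl' : l' ∈ L) (n : ℕ) (x : X.S n) :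
    lact L X l hl n x = lact L X l' hl' n x := by
  subst h
  rfl

theorem lact_eq_pt {l : G} {hl : l ∈ L} {n : ℕ} {x : X.S n} (h : lact L X l hl n x = X.pt n) :
    x = X.pt n := by
  have h1 := lact_mul (X := X) l⁻¹ l (L.inv_mem hl) hl n x
  rw [h, lact_pt, lact_one n x _ _ (inv_mul_cancel l)] at h1
  exact h1

variable (L X)

/-- The induced complex `G_+ ∧_L X`: equivariant functions supported on one coset. -/
def ind : GCx G where
  S n := {f : G → X.S n // (∀ (l : G) (hl : l ∈ L) g, f (l * g) = lact L X l hl n (f g)) ∧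
    ∀ g g', f g ≠ X.pt n → f g' ≠ X.pt n → g' * g⁻¹ ∈ L}
  pt n := ⟨fun _ => X.pt n, fun l hl g => (lact_pt l hl n).symm, fun g g' h => absurd rfl h⟩
  op {m n} a f := ⟨fun g => X.op a (f.1 g), fun l hl g => by
    change X.op a (f.1 (l * g)) = lact L X l hl m (X.op a (f.1 g))
    rw [f.2.1 l hl g, lact_op], fun g g' hg hg' => f.2.2 g g'
      (fun h => hg (by change X.op a (f.1 g) = _; rw [h, X.op_pt]))
      (fun h => hg' (by change X.op a (f.1 g') = _; rw [h, X.op_pt]))⟩
  op_pt a := Subtype.ext (funext fun g => X.op_pt a)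
  op_id f := Subtype.ext (funext fun g => X.op_id _)
  op_comp a b f := Subtype.ext (funext fun g => X.op_comp a b _)
  act γ :=
    { f := fun n f => ⟨fun g => f.1 (g * γ), fun l hl g => by
        change f.1 (l * g * γ) = lact L X l hl n (f.1 (g * γ))
        rw [mul_assoc, f.2.1 l hl], fun g g' hg hg' => by
          have h1 := f.2.2 _ _ hg hg'
          have h2 : g' * γ * (g * γ)⁻¹ = g' * g⁻¹ := by group
          rwa [h2] at h1⟩
      f_pt := fun n => rfl
      f_op := fun a f => rfl }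
  act_one n f := Subtype.ext (funext fun g => by
    change f.1 (g * 1) = f.1 g
    rw [mul_one])
  act_mul γ δ n f := Subtype.ext (funext fun g => by
    change f.1 (g * (γ * δ)) = f.1 (g * γ * δ)
    rw [mul_assoc])

variable {X}

open Classical in
/-- The function supported on the coset `L g` with value `x` at `g`. -/
noncomputable def spread (g : G) {n : ℕ} (x : X.S n) : (ind L X).S n :=
  ⟨fun g' => if h : g' * g⁻¹ ∈ L then lact L X (g' * g⁻¹) h n x else X.pt n, by
    intro l hl g'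
    beta_reduce
    by_cases h : g' * g⁻¹ ∈ L
    · have h' : l * g' * g⁻¹ ∈ L := by
        rw [mul_assoc]
        exact L.mul_mem hl h
      rw [dif_pos h, dif_pos h', ← lact_mul]
      exact lact_congr (mul_assoc _ _ _) _ _ _ _
    · have h' : l * g' * g⁻¹ ∉ L := by
        rw [mul_assoc]
        exact fun h2 => h ((L.mul_mem_cancel_left hl).1 h2)
      rw [dif_neg h, dif_neg h', lact_pt], by
    have key : ∀ g', (if h : g' * g⁻¹ ∈ L then lact L X (g' * g⁻¹) h n x else X.pt n) ≠ X.pt n →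
        g' * g⁻¹ ∈ L := by
      intro g' h1
      by_contra h2
      exact h1 (dif_neg h2)
    intro a b ha hb
    have h1 := L.mul_mem (key b hb) (L.inv_mem (key a ha))
    have h2 : b * g⁻¹ * (a * g⁻¹)⁻¹ = b * a⁻¹ := by group
    rwa [h2] at h1⟩

theorem spread_pos (g : G) {n : ℕ} (x : X.S n) (g' : G) (h : g' * g⁻¹ ∈ L) :
    (spread L g x).1 g' = lact L X (g' * g⁻¹) h n x := dif_pos h

theorem spread_neg (g : G) {n : ℕ} (x : X.S n) (g' : G) (h : g' * g⁻¹ ∉ L) :
    (spread L g x).1 g' = X.pt n := dif_neg h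

theorem spread_self (g : G) {n : ℕ} (x : X.S n) : (spread L g x).1 g = x := by
  rw [spread_pos L g x g (by rw [mul_inv_cancel]; exact L.one_mem)]
  exact lact_one n x _ _ (mul_inv_cancel g)

theorem spread_op (g : G) {m n : ℕ} (a : Op m n) (x : X.S n) :
    spread L g (X.op a x) = (ind L X).op a (spread L g x) := by
  apply Subtype.ext
  funext g'
  change (spread L g (X.op a x)).1 g' = X.op a ((spread L g x).1 g')
  by_cases h : g' * g⁻¹ ∈ L
  · rw [spread_pos L g _ g' h, spread_pos L g _ g' h, lact_op]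
  · rw [spread_neg L g _ g' h, spread_neg L g _ g' h, X.op_pt]

theorem spread_pt (g : G) (n : ℕ) : spread L g (X.pt n) = (ind L X).pt n := by
  apply Subtype.ext
  funext g'
  change (spread L g (X.pt n)).1 g' = X.pt n
  by_cases h : g' * g⁻¹ ∈ L
  · rw [spread_pos L g _ g' h, lact_pt]
  · rw [spread_neg L g _ g' h]

theorem spread_ext (g : G) {n : ℕ} (f : (ind L X).S n)
    (hf : ∀ g', g' * g⁻¹ ∉ L → f.1 g' = X.pt n) : spread L g (f.1 g) = f := by
  apply Subtype.ext
  funext g'
  by_cases h : g' * g⁻¹ ∈ L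
  · rw [spread_pos L g _ g' h, ← f.2.1]
    congr 1
    group
  · rw [spread_neg L g _ g' h, hf g' h]

theorem ind_isFin (hX : X.IsFin) : (ind L X).IsFin := by
  classical
  obtain ⟨h1, d, hd⟩ := hX
  refine ⟨fun n => ?_, d, fun n f => ?_⟩
  · have h2 : Finite (X.S n) := h1 n
    have h3 : Finite (G → X.S n) := inferInstance
    exact Subtype.finite
  · by_cases hf : ∃ g, f.1 g ≠ X.pt n
    · obtain ⟨g, hg⟩ := hf
      obtain ⟨k, hk, a, y, hy⟩ := hd n (f.1 g)
      refine ⟨k, hk, a, spread L g y, ?_⟩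
      rw [← spread_op, hy]
      refine spread_ext L g f fun g' hg' => ?_
      by_contra h2
      exact hg' (f.2.2 g g' hg h2)
    · push Not at hf
      refine ⟨0, Nat.zero_le _, ⟨fun _ => 0, fun _ _ _ => le_rfl⟩, (ind L X).pt 0, ?_⟩
      rw [(ind L X).op_pt]
      exact Subtype.ext (funext fun i => (hf i).symm)

/-- Acyclicity of the fixed points of an induced complex. -/
theorem ind_acyclic (E : Homology) (H : Subgroup G)
    (h : ∀ g : G, H.map (MulAut.conj g).toMonoidHom ≤ L →
      FixAcyclic E X ((H.map (MulAut.conj g).toMonoidHom).subgroupOf L)) :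
    FixAcyclic E (ind L X) H := by
  classical
  rw [fixB_acyclic]
  have hd : Decomp (fixB (ind L X) H) (G ⧸ L)
      (fun t n f => ∀ g : G, f.1.1 g ≠ X.pt n → (QuotientGroup.mk g⁻¹ : G ⧸ L) = t) := by
    refine ⟨fun t n g hg => absurd rfl hg, fun t {m n} a f hf g hg => ?_, fun n f => ?_,
      fun t t' n f ht ht' htt => ?_⟩
    · refine hf g fun h1 => hg ?_
      change X.op a (f.1.1 g) = _
      rw [h1, X.op_pt]
    · by_cases hf : ∃ g, f.1.1 g ≠ X.pt n
      · obtain ⟨g, hg⟩ := hf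
        refine ⟨QuotientGroup.mk g⁻¹, fun g' hg' => ?_⟩
        rw [QuotientGroup.eq]
        have h1 := f.1.2.2 g g' hg hg'
        rwa [inv_inv]
      · push Not at hf
        exact ⟨QuotientGroup.mk 1, fun g hg => absurd (hf g) hg⟩
    · apply Subtype.ext
      apply Subtype.ext
      funext g
      by_contra hg
      exact htt ((ht g hg).symm.trans (ht' g hg))
  refine hd.acyclic E fun t => ?_
  obtain ⟨g₁, rfl⟩ := QuotientGroup.mk_surjective t
  obtain ⟨g, rfl⟩ : ∃ g : G, g₁ = g⁻¹ := ⟨g₁⁻¹, (inv_inv _).symm⟩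
  have hsupp : ∀ n (f : (hd.part (QuotientGroup.mk g⁻¹)).S n) (g' : G), g' * g⁻¹ ∉ L →
      f.1.1.1 g' = X.pt n := by
    intro n f g' hg'
    by_contra h1
    have h2 := f.2 g' h1
    rw [QuotientGroup.eq, inv_inv] at h2
    exact hg' h2
  by_cases hH : H.map (MulAut.conj g).toMonoidHom ≤ L
  · have hE := (fixB_acyclic E X _).1 (h g hH)
    have hfix : ∀ n (x : X.S n), (∀ c ∈ (H.map (MulAut.conj g).toMonoidHom).subgroupOf L,
        (X.act c).f n x = x) → ∀ γ ∈ H, ((ind L X).act γ).f n (spread L g x) = spread L g x := by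
      intro n x hx γ hγ
      apply Subtype.ext
      funext g'
      change (spread L g x).1 (g' * γ) = (spread L g x).1 g'
      have hc : g * γ * g⁻¹ ∈ L := hH ⟨γ, hγ, rfl⟩
      have h1 : g' * γ * g⁻¹ = g' * g⁻¹ * (g * γ * g⁻¹) := by group
      by_cases h2 : g' * g⁻¹ ∈ L
      · have h3 : g' * γ * g⁻¹ ∈ L := by
          rw [h1]
          exact L.mul_mem h2 hc
        rw [spread_pos L g x _ h3, spread_pos L g x _ h2,
          lact_congr h1 h3 (L.mul_mem h2 hc), lact_mul _ _ h2 hc]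
        congr 1
        exact hx ⟨g * γ * g⁻¹, hc⟩ ⟨γ, hγ, rfl⟩
      · have h3 : g' * γ * g⁻¹ ∉ L := by
          rw [h1]
          exact fun h4 => h2 ((L.mul_mem_cancel_right hc).1 h4)
        rw [spread_neg L g x _ h3, spread_neg L g x _ h2]
    refine (E.acyclic_iff_of_bijective
      (X := fixB X ((H.map (MulAut.conj g).toMonoidHom).subgroupOf L))
      (Y := hd.part (QuotientGroup.mk g⁻¹))
      ⟨fun n x => ⟨⟨spread L g x.1, hfix n x.1 x.2⟩, fun g' hg' => ?_⟩,
        fun n => ?_, fun {m n} a x => ?_⟩ fun n => ⟨fun x y hxy => ?_, ?_⟩).1 hE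
    · rw [QuotientGroup.eq, inv_inv]
      by_contra h2
      exact hg' (spread_neg L g x.1 g' h2)
    · apply Subtype.ext
      apply Subtype.ext
      exact spread_pt L g n
    · apply Subtype.ext
      apply Subtype.ext
      exact spread_op L g a x.1
    · have h1 : spread L g x.1 = spread L g y.1 := congrArg (fun z => z.1.1) hxy
      have h2 : (spread L g x.1).1 g = (spread L g y.1).1 g := by rw [h1]
      rw [spread_self, spread_self] at h2
      exact Subtype.ext h2
    · intro f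
      refine ⟨⟨f.1.1.1 g, ?_⟩, ?_⟩
      · rintro ⟨c, hcL⟩ ⟨γ, hγ, hc⟩
        have hc' : g * γ * g⁻¹ = c := hc
        have h1 : f.1.1.1 (g * γ) = f.1.1.1 g :=
          congrFun (congrArg Subtype.val (f.1.2 γ hγ)) g
        have h2 := f.1.1.2.1 c hcL g
        have h3 : c * g = g * γ := by
          rw [← hc']
          group
        rw [h3, h1] at h2
        exact h2.symm
      · apply Subtype.ext
        apply Subtype.ext
        exact spread_ext L g f.1.1 (hsupp n f)
  · apply acyclic_of_subsingleton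
    intro n f
    apply Subtype.ext
    apply Subtype.ext
    apply Subtype.ext
    funext g'
    by_contra hg'
    apply hH
    have hg'L : g' * g⁻¹ ∈ L := by
      by_contra h1
      exact hg' (hsupp n f g' h1)
    rintro _ ⟨γ, hγ, rfl⟩
    change g * γ * g⁻¹ ∈ L
    have h1 : f.1.1.1 (g' * γ) = f.1.1.1 g' := congrFun (congrArg Subtype.val (f.1.2 γ hγ)) g'
    have h2 : f.1.1.1 (g' * γ) ≠ X.pt n := fun h3 => hg' (h1.symm.trans h3)
    have h3 := f.1.1.2.2 g' (g' * γ) hg' h2
    have h4 : g * γ * g⁻¹ = (g' * g⁻¹)⁻¹ * (g' * γ * g'⁻¹) * (g' * g⁻¹) := by group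
    rw [h4]
    exact L.mul_mem (L.mul_mem (L.inv_mem hg'L) h3) hg'L

/-- The `L`-fixed points of `G_+ ∧_L X` contain those of `X` as a retract. -/
theorem ind_retract (E : Homology) (h : FixAcyclic E (ind L X) L) : FixAcyclic E X ⊤ := by
  rw [fixB_acyclic] at h ⊢
  refine acyclic_of_retract E (X := fixB X ⊤) (Y := fixB (ind L X) L)
    ⟨fun n x => ⟨spread L 1 x.1, fun γ hγ => ?_⟩, fun n => ?_, fun {m n} a x => ?_⟩
    ⟨fun n f => ⟨f.1.1 1, ?_⟩, fun n => rfl, fun a f => rfl⟩
    (fun n x => Subtype.ext (spread_self L 1 x.1)) h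
  · apply Subtype.ext
    funext g'
    change (spread L 1 x.1).1 (g' * γ) = (spread L 1 x.1).1 g'
    have h1 : g' * γ * 1⁻¹ = g' * 1⁻¹ * γ := by group
    by_cases h2 : g' * 1⁻¹ ∈ L
    · have h3 : g' * γ * 1⁻¹ ∈ L := by
        rw [h1]
        exact L.mul_mem h2 hγ
      rw [spread_pos L 1 x.1 _ h3, spread_pos L 1 x.1 _ h2,
        lact_congr h1 h3 (L.mul_mem h2 hγ), lact_mul _ _ h2 hγ]
      congr 1
      exact x.2 ⟨γ, hγ⟩ trivial
    · have h3 : g' * γ * 1⁻¹ ∉ L := by
        rw [h1]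
        exact fun h4 => h2 ((L.mul_mem_cancel_right hγ).1 h4)
      rw [spread_neg L 1 x.1 _ h3, spread_neg L 1 x.1 _ h2]
  · apply Subtype.ext
    exact spread_pt L 1 n
  · apply Subtype.ext
    exact spread_op L 1 a x.1
  · rintro ⟨c, hcL⟩ _
    have h1 : f.1.1 (1 * c) = f.1.1 1 := congrFun (congrArg Subtype.val (f.2 c hcL)) 1
    have h2 := f.1.2.1 c hcL 1
    have h3 : c * 1 = 1 * c := by group
    rw [h3, h1] at h2
    exact h2.symm

end Vale.Agent.P241.F
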