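import Vale.Agent.P241.Sp.Moore

set_option linter.all false
set_option autoImplicit false

open CategoryTheory MonoidalCategory CartesianMonoidalCategory Simplicial Opposite

namespace Vale.Agent.P241.F

/-- A character of order `q` on the cyclic group generated by an element of order `q ^ k`. -/
theorem exists_char {L : Type} [Group L] (x : L) (q k : ℕ) (hq : q.Prime) (hx : x ^ q ^ k = 1)
    (hx1 : x ≠ 1) : ∃ φ : Subgroup.zpowers x →* Multiplicative (ZMod q),
      ∀ D : Subgroup (Subgroup.zpowers x),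
        ((⟨x, Subgroup.mem_zpowers x⟩ : Subgroup.zpowers x) ∉ D → D.map φ = ⊥) ∧
        ((⟨x, Subgroup.mem_zpowers x⟩ : Subgroup.zpowers x) ∈ D → D.map φ ≠ ⊥) := by
  obtain ⟨a, ha, hax⟩ := (Nat.dvd_prime_pow hq).1 (orderOf_dvd_of_pow_eq_one hx)
  have ha0 : a ≠ 0 := by
    rintro rfl
    rw [pow_zero] at hax
    exact hx1 (orderOf_eq_one_iff.1 hax)
  let X : Subgroup.zpowers x := ⟨x, Subgroup.mem_zpowers x⟩
  let ψ : Multiplicative ℤ →* Subgroup.zpowers x := zpowersHom _ X
  have hψ : ∀ j : ℤ, ψ (Multiplicative.ofAdd j) = X ^ j := fun j => rfl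
  have hψs : Function.Surjective ψ := by
    rintro ⟨y, ⟨j, rfl⟩⟩
    exact ⟨Multiplicative.ofAdd j, Subtype.ext (by rw [hψ]; rfl)⟩
  let θ : Multiplicative ℤ →* Multiplicative (ZMod q) :=
    AddMonoidHom.toMultiplicative (Int.castAddHom (ZMod q))
  have hX : orderOf X = q ^ a := by
    rw [← hax]
    exact (Subgroup.orderOf_coe X).symm
  have hker : ψ.ker ≤ θ.ker := by
    intro j hj
    have h1 : X ^ (Multiplicative.toAdd j) = 1 := hj
    have h2 : (orderOf X : ℤ) ∣ Multiplicative.toAdd j := orderOf_dvd_iff_zpow_eq_one.2 h1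
    rw [hX] at h2
    have h3 : (q : ℤ) ∣ Multiplicative.toAdd j := by
      refine dvd_trans ?_ h2
      exact_mod_cast dvd_pow_self q ha0
    exact (ZMod.intCast_zmod_eq_zero_iff_dvd _ _).2 h3
  let φ := (ψ.liftOfSurjective hψs) ⟨θ, hker⟩
  have hφ : ∀ j : ℤ, φ (X ^ j) = Multiplicative.ofAdd (j : ZMod q) := by
    intro j
    have h1 := ψ.liftOfRightInverse_comp_apply _ (Function.rightInverse_surjInv hψs) ⟨θ, hker⟩
      (Multiplicative.ofAdd j)
    exact h1
  refine ⟨φ, fun D => ⟨fun hD => ?_, fun hD hb => ?_⟩⟩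
  · rw [Subgroup.eq_bot_iff_forall]
    rintro _ ⟨y, hy, rfl⟩
    obtain ⟨j, hj⟩ := hψs y
    have hj' : y = X ^ (Multiplicative.toAdd j) := hj.symm
    rw [hj', hφ]
    by_contra hne
    have h1 : ¬ (q : ℤ) ∣ Multiplicative.toAdd j := fun h =>
      hne ((ZMod.intCast_zmod_eq_zero_iff_dvd _ _).2 h)
    have h2 : IsCoprime ((q : ℤ) ^ a) (Multiplicative.toAdd j) := by
      apply IsCoprime.pow_left
      exact (Int.isCoprime_iff_gcd_eq_one.2 (by
        rw [← Int.isCoprime_iff_gcd_eq_one]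
        exact (Prime.coprime_iff_not_dvd (Nat.prime_iff_prime_int.1 hq)).2 h1))
    obtain ⟨u, v, huv⟩ := h2
    apply hD
    have h3 : X = y ^ v := by
      rw [hj', ← zpow_mul]
      have h4 : X ^ ((q : ℤ) ^ a) = 1 := by
        have := pow_orderOf_eq_one X
        rw [hX] at this
        exact_mod_cast this
      calc X = X ^ (u * (q : ℤ) ^ a + v * Multiplicative.toAdd j) := by rw [huv, zpow_one]
        _ = X ^ (Multiplicative.toAdd j * v) := by
          rw [zpow_add, mul_comm u, zpow_mul, h4, one_zpow, one_mul, mul_comm]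
    change X ∈ D
    rw [h3]
    exact D.zpow_mem hy v
  · have h1 : φ X ∈ D.map φ := ⟨X, hD, rfl⟩
    rw [hb, Subgroup.mem_bot] at h1
    have h2 := hφ 1
    rw [zpow_one, h1, Int.cast_one] at h2
    have : Fact q.Prime := ⟨hq⟩
    have h3 : (1 : ZMod q) = 0 := h2.symm
    exact one_ne_zero h3

variable {p : ℕ} {K : ℕ → Homology}

/-- The detecting complex of one element. -/
theorem exists_Zx {L : Type} [Group L] [Finite L] (x : L) (q k : ℕ) (hq : q.Prime)
    (hx : x ^ q ^ k = 1) (h6 : ∀ i, (K i).Acyclic (Moore q)) :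
    ∃ (Z : GPair L) (e : ∀ n, Z.X.obj n), ∀ H : Subgroup L,
      ((∀ g, g * x * g⁻¹ ∈ H) → Split Z H e) ∧
      ((∃ g, g * x * g⁻¹ ∉ H) → ∀ i, Lite.cls (K i).toL (Z.fixed H)) := by
  by_cases hx1 : x = 1
  · subst hx1
    refine ⟨unitPair L, _, fun H => ⟨fun _ => split_unitPair H, ?_⟩⟩
    rintro ⟨g, hg⟩
    exact absurd (by simp : g * 1 * g⁻¹ ∈ H) hg
  · have : Fact q.Prime := ⟨hq⟩
    have : NeZero q := ⟨hq.ne_zero⟩
    obtain ⟨φ, hφ⟩ := exists_char x q k hq hx hx1
    have hmem : ∀ (H : Subgroup L) (g : L),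
        (⟨x, Subgroup.mem_zpowers x⟩ : Subgroup.zpowers x) ∈
          (H.map (MulAut.conj g).toMonoidHom).subgroupOf (Subgroup.zpowers x) ↔
        g⁻¹ * x * g ∈ H := by
      intro H g
      rw [Subgroup.mem_subgroupOf]
      constructor
      · rintro ⟨y, hy, hyx⟩
        have h1 : g * y * g⁻¹ = x := hyx
        rw [← h1]
        have h2 : g⁻¹ * (g * y * g⁻¹) * g = y := by group
        rw [h2]
        exact hy
      · intro h
        refine ⟨_, h, ?_⟩
        change g * (g⁻¹ * x * g) * g⁻¹ = x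
        group
    let P : GPair (Subgroup.zpowers x) := (mooreP q).comap φ
    let e : ∀ n, P.X.obj n := fun n => (ctr q n.unop.len : (mooreP q).X.obj n)
    have he : ∀ n (c : Subgroup.zpowers x), (P.act c).app n (e n) = e n := by
      intro n c
      change Quot.mk _ _ = _
      exact mk_const q _ _
    refine ⟨norm (Subgroup.zpowers x) P, fun n => ⟨fun _ => e n, fun c _ => (he n c).symm⟩,
      fun H => ⟨fun h => Split.normG he H fun g =>
        Split.comapG φ (mooreP_split q _ ((hφ _).2 ((hmem H g).2 ?_))), ?_⟩⟩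
    · have := h g⁻¹
      rwa [inv_inv] at this
    · rintro ⟨g, hg⟩ i
      refine (Lite.acClass (K i).toL).norm_fixed H g⁻¹ ?_
      rw [GPair.fixed_comap, (hφ _).1]
      · exact mooreP_fixed_bot (K i) q (h6 i)
      · rw [hmem, inv_inv]
        exact hg

/-- The detecting complex of finitely many elements. -/
theorem exists_ZF {L : Type} [Group L] [Finite L]
    (h6 : ∀ i q, q.Prime → q ≠ p → (K i).Acyclic (Moore q)) (F : Set L) (hFf : F.Finite)
    (hF : ∀ x ∈ F, ∃ q k : ℕ, q.Prime ∧ q ≠ p ∧ x ^ q ^ k = 1) :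
    ∃ (Z : GPair L) (e : ∀ n, Z.X.obj n), ∀ H : Subgroup L,
      ((∀ x ∈ F, ∀ g, g * x * g⁻¹ ∈ H) → Split Z H e) ∧
      ((∃ x ∈ F, ∃ g, g * x * g⁻¹ ∉ H) → ∀ i, Lite.cls (K i).toL (Z.fixed H)) := by
  induction F, hFf using Set.Finite.induction_on with
  | empty =>
    refine ⟨unitPair L, _, fun H => ⟨fun _ => split_unitPair H, ?_⟩⟩
    rintro ⟨x, hx, _⟩
    exact absurd hx (Set.notMem_empty x)
  | insert hxF hFf ih =>
    rename_i x F
    obtain ⟨Z, e, hZ⟩ := ih fun y hy => hF y (Set.mem_insert_of_mem _ hy)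
    obtain ⟨q, k, hq, hqp, hx⟩ := hF x (Set.mem_insert _ _)
    obtain ⟨Z', e', hZ'⟩ := exists_Zx (K := K) x q k hq hx fun i => h6 i q hq hqp
    refine ⟨gsmash Z Z', _, fun H => ⟨fun h =>
      ((hZ H).1 fun y hy => h y (Set.mem_insert_of_mem _ hy)).smashG
        ((hZ' H).1 (h x (Set.mem_insert _ _))), ?_⟩⟩
    rintro ⟨y, hy, hg⟩ i
    rcases Set.mem_insert_iff.1 hy with rfl | hy
    · exact (Lite.acClass _).gsmash_right _ _ _ ((hZ' H).2 hg i)
    · exact (Lite.acClass _).gsmash_left _ _ _ ((hZ H).2 ⟨y, hy, hg⟩ i)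

/-- `O^p(L)`: the subgroup generated by the elements of prime power order prime to `p`. -/
def pRes (p : ℕ) (L : Type) [Group L] : Subgroup L :=
  Subgroup.normalClosure {x | ∃ q k : ℕ, q.Prime ∧ q ≠ p ∧ x ^ q ^ k = 1}

instance (p : ℕ) (L : Type) [Group L] : (pRes p L).Normal := Subgroup.normalClosure_normal

theorem isPGroup_pRes (hp : p.Prime) (L : Type) [Group L] [Finite L] :
    IsPGroup p (L ⧸ pRes p L) := by
  have key : ∀ m : ℕ, 0 < m → m.Coprime p → ∀ z : L, z ^ m = 1 → z ∈ pRes p L := by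
    intro m
    induction m using Nat.recOnPosPrimePosCoprime with
    | prime_pow q n hq hn =>
      intro _ hc z hz
      refine Subgroup.subset_normalClosure ⟨q, n, hq, ?_, hz⟩
      rintro rfl
      have h1 : Nat.Coprime q q := Nat.Coprime.coprime_dvd_left (dvd_pow_self q hn.ne') hc
      rw [Nat.coprime_self] at h1
      exact hq.one_lt.ne' h1
    | zero =>
      intro h
      exact absurd h (lt_irrefl _)
    | one =>
      intro _ _ z hz
      rw [pow_one] at hz
      rw [hz]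
      exact Subgroup.one_mem _
    | coprime a b ha hb hab iha ihb =>
      intro _ hc z hz
      have h1 : z ^ a ∈ pRes p L := ihb (by omega) (Nat.Coprime.coprime_mul_left hc) _ (by
        rw [← pow_mul, hz])
      have h2 : z ^ b ∈ pRes p L := iha (by omega) (Nat.Coprime.coprime_mul_right hc) _ (by
        rw [← pow_mul, mul_comm, hz])
      have h3 : z = (z ^ a) ^ (Nat.gcdA a b) * (z ^ b) ^ (Nat.gcdB a b) := by
        have h4 := Nat.gcd_eq_gcd_ab a b
        rw [hab, Nat.cast_one] at h4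
        rw [← zpow_natCast z a, ← zpow_natCast z b, ← zpow_mul, ← zpow_mul, ← zpow_add, ← h4,
          zpow_one]
      rw [h3]
      exact Subgroup.mul_mem _ (Subgroup.zpow_mem _ h1 _) (Subgroup.zpow_mem _ h2 _)
  intro y
  obtain ⟨x, rfl⟩ := QuotientGroup.mk'_surjective _ y
  obtain ⟨a, m, hm, hx⟩ := Nat.exists_eq_pow_mul_and_not_dvd (orderOf_pos x).ne' p hp.ne_one
  refine ⟨a, ?_⟩
  rw [← map_pow, ← MonoidHom.mem_ker, QuotientGroup.ker_mk']
  refine key m ?_ ?_ _ ?_
  · rcases Nat.eq_zero_or_pos m with h | h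
    · exact absurd (h ▸ dvd_zero p) hm
    · exact h
  · exact ((Nat.Prime.coprime_iff_not_dvd hp).2 hm).symm
  · rw [← pow_mul, ← hx, pow_orderOf_eq_one]

/-- The detecting complex: it separates the subgroups containing `O^p(L)` from the others. -/
theorem exists_Z (hp : p.Prime) {L : Type} [Group L] [Finite L]
    (h6 : IsPGroup p L ∨ PLocal p K) :
    ∃ (Z : GPair L) (e : ∀ n, Z.X.obj n), ∀ H : Subgroup L,
      (pRes p L ≤ H → Split Z H e) ∧
      (¬ pRes p L ≤ H → ∀ i, Lite.cls (K i).toL (Z.fixed H)) := by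
  rcases h6 with hL | h6
  · refine ⟨unitPair L, _, fun H => ⟨fun _ => split_unitPair H, fun h => absurd ?_ h⟩⟩
    refine (Subgroup.closure_le _).2 ?_
    intro y hy
    obtain ⟨x, ⟨q, k, hq, hqp, hx⟩, hxy⟩ := Group.mem_conjugatesOfSet_iff.1 hy
    obtain ⟨j, hj⟩ := hL x
    have hx1 : x = 1 := by
      rw [← orderOf_eq_one_iff]
      exact Nat.eq_one_of_dvd_coprimes (Nat.Coprime.pow k j
        ((Nat.coprime_primes hq hp).2 hqp)) (orderOf_dvd_of_pow_eq_one hx)
        (orderOf_dvd_of_pow_eq_one hj)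
    subst hx1
    obtain ⟨g, hg⟩ := isConj_iff.1 hxy
    rw [← hg, mul_one, mul_inv_cancel]
    exact H.one_mem
  obtain ⟨Z, e, hZ⟩ := exists_ZF (p := p) (K := K) (L := L) h6
    {x | ∃ q k : ℕ, q.Prime ∧ q ≠ p ∧ x ^ q ^ k = 1} (Set.toFinite _) (fun x hx => hx)
  refine ⟨Z, e, fun H => ⟨fun h => (hZ H).1 fun x hx g => h ?_, fun h => (hZ H).2 ?_⟩⟩
  · exact (Subgroup.normalClosure_normal.conj_mem x (Subgroup.subset_normalClosure hx) g)
  · by_contra hcon
    push Not at hcon
    apply h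
    refine (Subgroup.closure_le _).2 ?_
    intro y hy
    obtain ⟨x, hx, hxy⟩ := Group.mem_conjugatesOfSet_iff.1 hy
    obtain ⟨g, hg⟩ := isConj_iff.1 hxy
    rw [← hg]
    exact hcon x hx g

end Vale.Agent.P241.F
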