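import Vale.Agent.P241.Bdl.B2

set_option linter.all false
set_option autoImplicit false

open CategoryTheory Opposite Limits

namespace Vale.Agent.P241.Based

variable {G : Type} [Group G] {p : ℕ} [hp : Fact p.Prime] (K : ℕ → AcTheory)
  {D : ∀ (V : Type) [Group V], ℕ → ℕ → Prop}

/-- The inductive construction, for all subgroups at once. -/
theorem loop_all [Finite G] (hG : IsPGroup p G)
    (hD : ∀ (V V' : Type) [Group V] [Group V'] (_ : V ≃* V') (m j : ℕ), D V m j → D V' m j)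
    (hR : Realization p K D) (n : ℕ)
    {θ : Subgroup G → ℕ} (hθ : ∀ A g, θ (conj g A) ≤ θ A)
    (hlink : ∀ L U : Subgroup G, L < U → ∀ _ : (L.subgroupOf U).Normal, ∀ j, θ U ≤ j →
      0 < θ L → D (U ⧸ L.subgroupOf U) (θ L - 1) j) (k : ℕ) :
    ∀ (S : Set (Subgroup G)) (Y : GCx G), St K n θ S Y → (∀ A ∈ S, ∀ B, A ≤ B → B ∈ S) →
      (∀ A ∈ S, ∀ g, conj g A ∈ S) → ⊤ ∈ S → Sᶜ.ncard ≤ k →
      ∃ Y' : GCx G, St K n θ Set.univ Y' := by
  induction k with
  | zero =>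
    intro S Y hY hup hconj htop hk
    have h1 : Sᶜ.Finite := Set.toFinite _
    have h2 : Sᶜ = ∅ := (Set.ncard_eq_zero h1).1 (Nat.le_zero.1 hk)
    rw [Set.compl_empty_iff] at h2
    subst h2
    exact ⟨Y, hY⟩
  | succ k ih =>
    intro S Y hY hup hconj htop hk
    by_cases hS : S = Set.univ
    · subst hS
      exact ⟨Y, hY⟩
    obtain ⟨L₀, hL₀⟩ : ∃ L₀, L₀ ∉ S := (Set.ne_univ_iff_exists_notMem S).1 hS
    obtain ⟨L, hHL, hL⟩ := (Set.toFinite {L : Subgroup G | L ∉ S}).exists_le_maximal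
      (show L₀ ∈ {L : Subgroup G | L ∉ S} from hL₀)
    have hLS : L ∉ S := hL.prop
    have hmax : ∀ A, L < A → A ∈ S := by
      intro A hA
      by_contra hAS
      exact absurd (hL.le_of_ge hAS hA.le) (not_le_of_gt hA)
    obtain ⟨Y', hY'⟩ := step_lemma K hG hD hR hθ hY hup hconj htop hLS hmax
      (fun U => hlink L U)
    refine ih (S ∪ {A | ∃ g, A = conj g L}) Y' hY' ?_ ?_ (Or.inl htop) ?_
    · rintro A (hA | ⟨g, rfl⟩) B hB
      · exact Or.inl (hup A hA B hB)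
      · have h1 : L ≤ conj g⁻¹ B := (conj_le_iff g).1 hB
        rcases h1.eq_or_lt with h2 | h2
        · right
          refine ⟨g, ?_⟩
          rw [h2, conj_conj, mul_inv_cancel, conj_one]
        · left
          have h3 := hconj _ (hmax _ h2) g
          rwa [conj_conj, mul_inv_cancel, conj_one] at h3
    · rintro A (hA | ⟨g, rfl⟩) g'
      · exact Or.inl (hconj A hA g')
      · exact Or.inr ⟨g' * g, conj_conj _ _ _⟩
    · have h1 : (S ∪ {A | ∃ g, A = conj g L})ᶜ ⊂ Sᶜ := by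
        refine ⟨fun A hA hAS => hA (Or.inl hAS), fun h => ?_⟩
        exact h hLS (Or.inr ⟨1, (conj_one L).symm⟩)
      have h2 := Set.ncard_lt_ncard h1 (Set.toFinite _)
      omega

/-- The universal construction. -/
theorem construction_all [Finite G] (hG : IsPGroup p G)
    (hD : ∀ (V V' : Type) [Group V] [Group V'] (_ : V ≃* V') (m j : ℕ), D V m j → D V' m j)
    (hR : Realization p K D)
    (n : ℕ) (B : BSSet) (hB : IsFin B) (hB0 : ∀ j < n, (K j).Acyclic B)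
    (hBn : ¬ (K n).Acyclic B) {θ : Subgroup G → ℕ} (hθ : ∀ A g, θ (conj g A) ≤ θ A)
    (hθn : θ ⊤ ≤ n)
    (hlink : ∀ L U : Subgroup G, L < U → ∀ _ : (L.subgroupOf U).Normal, ∀ j, θ U ≤ j →
      0 < θ L → D (U ⧸ L.subgroupOf U) (θ L - 1) j) :
    ∃ Y : GCx G, IsFin (Y.fix ⊥) ∧ (∀ H, ∀ j < θ H, (K j).Acyclic (Y.fix H)) ∧
      ¬ (K n).Acyclic (Y.fix ⊤) := by
  have hY : St K n θ ({⊤} : Set (Subgroup G)) (trivCx G B) := by
    refine ⟨hB.of_iso (trivFixIso B ⊥), ?_, ?_, ?_⟩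
    · intro m y _
      rw [Set.mem_singleton_iff, eq_top_iff]
      intro g _
      rfl
    · intro h
      exact hBn (h.of_iso (trivFixIso B ⊤).symm)
    · rintro A rfl j hj
      exact (hB0 j (by omega)).of_iso (trivFixIso B ⊤)
  obtain ⟨Y', h1⟩ := loop_all K hG hD hR n hθ hlink _ {⊤} (trivCx G B) hY
    (by rintro A rfl B hB; exact top_le_iff.1 hB)
    (by rintro A rfl g; exact conj_top g) rfl le_rfl
  exact ⟨Y', h1.fin, fun H => h1.typ H trivial, h1.top⟩

end Vale.Agent.P241.Based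

namespace Vale.Agent.P241.F

variable {p : ℕ} [hp : Fact p.Prime] {K : ℕ → Homology} {T : ℕ → Tel p}
  (hab : ∀ A : FiniteGrp.{0}, IsPGroup p A → IsMulCommutative A → ∀ n r,
    Smith (K (n + r)) (K n) (⊥ : Subgroup A) ↔ Group.rank A ≤ r)
  (halive : ∀ t, ∀ A : FiniteGrp.{0}, IsPGroup p A → ¬ (T t).Dead A →
    Smith (K (t + 1)) (K 0) (⊥ : Subgroup A))
include hab halive

/-- A complex whose chromatic types are as large as possible, at all subgroups. -/
theorem universal {B : ℕ → FiniteGrp.{0} → Homology}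
    (hN : ∀ (t : ℕ) (V : FiniteGrp.{0}) (Y : BSS), Y.IsFin → ¬ (B t V).Acyclic Y →
      ∃ j, ¬ (K j).Acyclic Y ∧ ∀ A : FiniteGrp.{0}, IsPGroup p A → IsMulCommutative A →
        Group.rank A ≤ j → ¬ (T t).Dead (.of (V × A)))
    (hR : ∀ W : FiniteGrp.{0}, IsPGroup p W → ∀ (S : GCx W) (r : ℕ), S.IsFin →
      (∀ V : Subgroup W, V ≠ ⊥ → ∀ t < r, FixAcyclic (B t (.of V)) S V) → Attachable K r S)
    (G : FiniteGrp.{0}) (hG : IsPGroup p G) (n : ℕ) :
    ∃ Y : GCx G, Y.IsFin ∧ (∀ H, ∀ j < n + ell H, FixAcyclic (K j) Y H) ∧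
      ¬ FixAcyclic (K n) Y ⊤ := by
  obtain ⟨Z, hZ, hZ0, hZn⟩ := exists_type K hab n
  obtain ⟨Y, h1, h2, h3⟩ := Based.construction_all (fun n => acTh (K n)) hG
    (D := fun V _ m j => LinkD T V m j)
    (fun V V' _ _ e m j h => LinkD.congr V V' e m j h)
    (realization_toB (acyclic_mono K hab) hN hR) n (toB Z)
    (isFin_toB hZ) (fun j hj => hZ0 j hj) hZn (θ := fun A => n + ell A)
    (fun A g => Nat.add_le_add_left (ell_conj_le hG A g) n) (by rw [ell_top']; exact le_rfl)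
    (fun L U hLU hn j hj _ => link hab halive hG hLU.le n j hj)
  exact ⟨gOfB Y, isFin_gOfB h1, fun H j hj => (fixAcyclic_gOfB (K j) Y H).2 (h2 H j hj),
    fun h => h3 ((fixAcyclic_gOfB (K n) Y ⊤).1 h)⟩

end Vale.Agent.P241.F
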