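import Vale.Agent.P241.Sp.Ind2
import Vale.Agent.P241.Sp.Res
import Vale.Agent.P241.Sp.Univ

set_option linter.all false
set_option autoImplicit false

open CategoryTheory MonoidalCategory CartesianMonoidalCategory Simplicial Opposite

namespace Vale.Agent.P241.F

/-! ### Chains -/

theorem isPGroup_step {p : ℕ} {G : Type} [Group G] {A B : Subgroup G} {x : G}
    (hx : x ∈ Subgroup.normalizer (A : Set G)) (hk : ∃ k : ℕ, x ^ p ^ k ∈ A)
    (hB : B = A ⊔ Subgroup.zpowers x) [hn : (A.subgroupOf B).Normal] :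
    IsPGroup p (B ⧸ A.subgroupOf B) := by
  have hxB : x ∈ B := by
    rw [hB]
    exact Subgroup.mem_sup_right (Subgroup.mem_zpowers x)
  let g : B ⧸ A.subgroupOf B := QuotientGroup.mk' (A.subgroupOf B) ⟨x, hxB⟩
  let S : Subgroup B := (Subgroup.zpowers g).comap (QuotientGroup.mk' (A.subgroupOf B))
  have hS : B ≤ S.map B.subtype := by
    conv_lhs => rw [hB]
    refine sup_le ?_ ?_
    · intro a ha
      have haB : a ∈ B := by
        rw [hB]
        exact Subgroup.mem_sup_left ha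
      refine ⟨⟨a, haB⟩, ?_, rfl⟩
      change QuotientGroup.mk' (A.subgroupOf B) ⟨a, _⟩ ∈ Subgroup.zpowers g
      have : QuotientGroup.mk' (A.subgroupOf B) ⟨a, haB⟩ = 1 := by
        rw [← MonoidHom.mem_ker, QuotientGroup.ker_mk']
        exact ha
      rw [this]
      exact Subgroup.one_mem _
    · rw [Subgroup.zpowers_le]
      exact ⟨⟨x, hxB⟩, Subgroup.mem_zpowers g, rfl⟩
  obtain ⟨k, hk⟩ := hk
  have hgk : g ^ p ^ k = 1 := by
    change (QuotientGroup.mk' (A.subgroupOf B) ⟨x, hxB⟩) ^ p ^ k = 1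
    rw [← map_pow, ← MonoidHom.mem_ker, QuotientGroup.ker_mk']
    exact hk
  intro y
  obtain ⟨y, rfl⟩ := QuotientGroup.mk'_surjective _ y
  obtain ⟨z, hz, hz'⟩ := hS y.2
  have hzy : z = y := Subtype.ext hz'
  subst hzy
  obtain ⟨j, hj⟩ := Subgroup.mem_zpowers_iff.1 (show QuotientGroup.mk' (A.subgroupOf B) z ∈
    Subgroup.zpowers g from hz)
  refine ⟨k, ?_⟩
  rw [← hj, ← zpow_natCast, ← zpow_mul, mul_comm, zpow_mul, zpow_natCast, hgk, one_zpow]

theorem pchain_of_isChain {p : ℕ} {G : Type} [Group G] {H L : Subgroup G} {s : ℕ}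
    (h : IsChain H L s) (hL : ∀ x ∈ L, ∃ k : ℕ, x ^ p ^ k ∈ H) : PChain p H L s := by
  obtain ⟨c, h0, h1, h2⟩ := h
  have hmono : ∀ i j, i ≤ j → j ≤ s → c i ≤ c j := by
    intro i j hij
    induction j, hij using Nat.le_induction with
    | base => exact fun _ => le_rfl
    | succ j hij ih =>
      intro hj
      obtain ⟨x, _, hx⟩ := h2 j hj
      refine (ih (by omega)).trans ?_
      rw [hx]
      exact le_sup_left
  refine ⟨c, h0, h1, fun i hi => ?_⟩
  obtain ⟨x, hx, hc⟩ := h2 i hi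
  refine ⟨x, hx, ?_, hc⟩
  have hxL : x ∈ L := by
    rw [← h1]
    refine hmono (i + 1) s hi le_rfl ?_
    rw [hc]
    exact Subgroup.mem_sup_right (Subgroup.mem_zpowers x)
  obtain ⟨k, hk⟩ := hL x hxL
  refine ⟨k, hmono 0 i (Nat.zero_le _) hi.le ?_⟩
  rwa [h0]

/-! ### Comparison of the models -/

theorem fix_iff_pair (E : Homology) {G : FiniteGrp.{0}} (X : GCx G) (hX : X.IsFin)
    (H : Subgroup G) : FixAcyclic E X H ↔ Lite.cls E.toL ((Lite.toPair X.toL hX).fixed H) :=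
  (fixAcyclic_toL E X H).symm.trans (Lite.fixAcyclic_toPair E.toL X.toL hX H)

theorem fix_iff_collapse (E : Homology) {G : FiniteGrp.{0}} (P : GPair G)
    (H : Subgroup G) : FixAcyclic E (GCx.ofL (Lite.gcollapse P)) H ↔ Lite.cls E.toL (P.fixed H) :=
  (fixAcyclic_toL E (GCx.ofL (Lite.gcollapse P)) H).symm.trans
    (Lite.fixAcyclic_gcollapse E.toL P H)

theorem fix_conj (E : Homology) {G : FiniteGrp.{0}} (X : GCx G) (H : Subgroup G) (g : G)
    (h : FixAcyclic E X H) : FixAcyclic E X (H.map (MulAut.conj g).toMonoidHom) := by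
  rw [fixB_acyclic] at h ⊢
  have hinv : ∀ (n : ℕ) (a b : G) (x : X.S n), a * b = 1 → (X.act a).f n ((X.act b).f n x) = x := by
    intro n a b x hab
    rw [← X.act_mul, hab, X.act_one]
  refine (E.acyclic_iff_of_bijective (X := fixB X H)
    (Y := fixB X (H.map (MulAut.conj g).toMonoidHom))
    ⟨fun n x => ⟨(X.act g).f n x.1, ?_⟩, fun n => Subtype.ext ((X.act g).f_pt n),
      fun a x => Subtype.ext ((X.act g).f_op a x.1)⟩ fun n => ⟨fun x y hxy => ?_, ?_⟩).1 h
  · rintro _ ⟨γ, hγ, rfl⟩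
    change (X.act (g * γ * g⁻¹)).f n ((X.act g).f n x.1) = _
    have h1 : g * γ * g⁻¹ * g = g * γ := by group
    rw [← X.act_mul, h1, X.act_mul, x.2 γ hγ]
  · have h1 : (X.act g).f n x.1 = (X.act g).f n y.1 := congrArg Subtype.val hxy
    have h2 := congrArg ((X.act g⁻¹).f n) h1
    rw [hinv n _ _ _ (inv_mul_cancel g), hinv n _ _ _ (inv_mul_cancel g)] at h2
    exact Subtype.ext h2
  · intro y
    refine ⟨⟨(X.act g⁻¹).f n y.1, fun γ hγ => ?_⟩, Subtype.ext ?_⟩
    · have h1 := y.2 (g * γ * g⁻¹) ⟨γ, hγ, rfl⟩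
      have h2 : γ * g⁻¹ = g⁻¹ * (g * γ * g⁻¹) := by group
      rw [← X.act_mul, h2, X.act_mul, h1]
    · exact hinv n _ _ _ (mul_inv_cancel g)

section

variable {p : ℕ} [hp : Fact p.Prime] {K : ℕ → Homology} {T : ℕ → Tel p}
  (hab : ∀ A : FiniteGrp.{0}, IsPGroup p A → IsMulCommutative A → ∀ n r,
    Smith (K (n + r)) (K n) (⊥ : Subgroup A) ↔ Group.rank A ≤ r)
include hab

omit hp in
theorem fix_mono {G : FiniteGrp.{0}} (X : GCx G) (hX : X.IsFin) (H : Subgroup G) {m n : ℕ}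
    (hnm : n ≤ m) (h : FixAcyclic (K m) X H) : FixAcyclic (K n) X H := by
  obtain ⟨Y, i, hY, hi⟩ := exists_isFixF X hX H
  obtain ⟨r, rfl⟩ := Nat.exists_eq_add_of_le hnm
  rw [fixAcyclic_iffF _ hi] at h ⊢
  exact acyclic_mono K hab n r Y hY h

omit hp in
/-- Type functions exist. -/
theorem exists_isType {G : FiniteGrp.{0}} (X : GCx G) (hX : X.IsFin) :
    ∃ τ : Subgroup G → ℕ∞, IsType K X τ := by
  classical
  refine ⟨fun H => if h : ∃ m, ¬ FixAcyclic (K m) X H then ((Nat.find h : ℕ) : ℕ∞) else ⊤,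
    fun H m => ?_⟩
  beta_reduce
  by_cases h : ∃ m, ¬ FixAcyclic (K m) X H
  · rw [dif_pos h, Nat.cast_lt]
    constructor
    · intro hm
      by_contra hcon
      exact Nat.find_spec h (fix_mono hab X hX H (not_lt.1 hcon) hm)
    · intro hm
      by_contra hcon
      exact Nat.find_min h hm hcon
  · rw [dif_neg h]
    push Not at h
    exact ⟨fun _ => ENat.coe_lt_top m, fun _ => h m⟩

/-- The upper bound. -/
theorem chain_upper {G : FiniteGrp.{0}} (P : GPair G) {L : Subgroup G} (s : ℕ) :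
    ∀ (H : Subgroup G), PChain p H L s → ∀ n, Lite.cls (K (n + s)).toL (P.fixed H) →
      Lite.cls (K n).toL (P.fixed L) := by
  induction s with
  | zero =>
    rintro H ⟨c, h0, h1, _⟩ n h
    rw [← h1, h0]
    exact h
  | succ s ih =>
    rintro H ⟨c, h0, h1, h2⟩ n h
    refine ih (c 1) ⟨fun i => c (i + 1), rfl, h1, fun i hi => h2 (i + 1) (by omega)⟩ n ?_
    obtain ⟨x, hx, hk, hc⟩ := h2 0 (Nat.succ_pos s)
    obtain ⟨h3, h4, h5⟩ := (step_iff (c 0) (c (0 + 1))).1 ⟨x, hx, hc⟩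
    have h6 := isPGroup_step hx hk hc (hn := h4)
    have h7 := AbVal.cyclic hab (c (0 + 1) ⧸ (c 0).subgroupOf (c (0 + 1))) h6 h5 (n + s)
    rw [Lite.smith_iff_adm] at h7
    refine Adm.of_step (Lite.acClass _) (Lite.acClass _) h3 h7 P ?_
    rw [h0]
    exact h

/-- Chains give implications. -/
theorem forces_of_chain {G : FiniteGrp.{0}} (H L : Subgroup G) (m n s : ℕ) (g : G)
    (hs : n + s ≤ m) (h : PChain p (H.map (MulAut.conj g).toMonoidHom) L s) :
    Forces (K m) (K n) H L := by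
  intro X hX hE
  have h1 := fix_mono hab X hX _ hs (fix_conj (K m) X H g hE)
  rw [fix_iff_pair _ X hX] at h1 ⊢
  exact chain_upper hab _ s _ h n h1

variable (halive : ∀ t, ∀ A : FiniteGrp.{0}, IsPGroup p A → ¬ (T t).Dead A →
    Smith (K (t + 1)) (K 0) (⊥ : Subgroup A))
include halive

/-- The test complexes. -/
theorem exists_test {B : ℕ → FiniteGrp.{0} → Homology}
    (hN : ∀ (t : ℕ) (V : FiniteGrp.{0}) (Y : BSS), Y.IsFin → ¬ (B t V).Acyclic Y →
      ∃ j, ¬ (K j).Acyclic Y ∧ ∀ A : FiniteGrp.{0}, IsPGroup p A → IsMulCommutative A →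
        Group.rank A ≤ j → ¬ (T t).Dead (.of (V × A)))
    (hR : ∀ W : FiniteGrp.{0}, IsPGroup p W → ∀ (S : GCx W) (r : ℕ), S.IsFin →
      (∀ V : Subgroup W, V ≠ ⊥ → ∀ t < r, FixAcyclic (B t (.of V)) S V) → Attachable K r S)
    (G : FiniteGrp.{0}) (L : Subgroup G) (h6 : IsPGroup p L ∨ PLocal p K) (n : ℕ) :
    ∃ X : GCx G, X.IsFin ∧ ¬ FixAcyclic (K n) X L ∧ ∀ (H : Subgroup G) (m : ℕ),
      (∀ g s, PChain p (H.map (MulAut.conj g).toMonoidHom) L s → m < n + s) →
        FixAcyclic (K m) X H := by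
  have hQ : IsPGroup p (L ⧸ pRes p L) := isPGroup_pRes hp.out L
  obtain ⟨Y, hY, hY1, hY2⟩ := universal hab halive hN hR (.of (L ⧸ pRes p L)) hQ n
  obtain ⟨Z, e, hZ⟩ := exists_Z (p := p) (K := K) hp.out (L := L) h6
  let PY : GPair (L ⧸ pRes p L) := Lite.toPair Y.toL hY
  let PL : GPair L := PY.comap (QuotientGroup.mk' (pRes p L))
  have hPL : ∀ (E : Homology) (D : Subgroup L), Lite.cls E.toL (PL.fixed D) ↔
      FixAcyclic (G := .of (L ⧸ pRes p L)) E Y (D.map (QuotientGroup.mk' (pRes p L))) := by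
    intro E D
    rw [fix_iff_pair (G := .of (L ⧸ pRes p L)) E Y hY]
    change Lite.cls E.toL ((PY.comap (QuotientGroup.mk' (pRes p L))).fixed D) ↔ _
    rw [GPair.fixed_comap]
    exact Iff.rfl
  let W : GCx (.of L) := GCx.ofL (Lite.gcollapse (gsmash PL Z))
  have hW : W.IsFin := Lite.gcollapse_isFin (gsmash PL Z)
  refine ⟨ind L W, ind_isFin L hW, fun h => ?_, fun H m hm => ind_acyclic L (K m) H fun g hg => ?_⟩
  · have h1 := (fix_iff_collapse (G := .of L) (K n) (gsmash PL Z) ⊤).1 (ind_retract L (K n) h)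
    have h2 := ((hZ ⊤).1 le_top).acyclic (K n).toL PL h1
    have h3 : (⊤ : Subgroup L).map (QuotientGroup.mk' (pRes p L)) = ⊤ :=
      Subgroup.map_top_of_surjective _ (QuotientGroup.mk'_surjective _)
    have h4 : ∀ A : Subgroup (L ⧸ pRes p L), A = ⊤ →
        ¬ FixAcyclic (G := .of (L ⧸ pRes p L)) (K n) Y A := by
      rintro _ rfl h
      exact hY2 h
    exact h4 _ h3 ((hPL (K n) ⊤).1 h2)
  · refine (fix_iff_collapse (G := .of L) (K m) (gsmash PL Z) _).2 ?_
    by_cases hD : pRes p L ≤ (H.map (MulAut.conj g).toMonoidHom).subgroupOf L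
    · refine (Lite.acClass _).gsmash_left _ _ _ ((hPL _ _).2 (hY1 _ m ?_))
      apply hm g
      set D : Subgroup L := (H.map (MulAut.conj g).toMonoidHom).subgroupOf L with hDdef
      have h1 := (isChain_ell hQ (D.map (QuotientGroup.mk' (pRes p L)))).comap
        (QuotientGroup.mk' (pRes p L))
      rw [Subgroup.comap_map_eq_self (by rw [QuotientGroup.ker_mk']; exact hD),
        Subgroup.comap_top] at h1
      have h2 := h1.map L.subtype
      rw [← MonoidHom.range_eq_map, Subgroup.range_subtype, hDdef,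
        Subgroup.subgroupOf_map_subtype, inf_eq_left.2 hg] at h2
      refine pchain_of_isChain h2 fun x hx => ?_
      obtain ⟨k, hk⟩ := hQ (QuotientGroup.mk' (pRes p L) ⟨x, hx⟩)
      refine ⟨k, ?_⟩
      rw [← map_pow, ← MonoidHom.mem_ker, QuotientGroup.ker_mk'] at hk
      exact hD hk
    · exact (Lite.acClass _).gsmash_right _ _ _ ((hZ _).2 hD m)

/-- Inclusions in the Balmer spectrum. -/
theorem forces_iff {B : ℕ → FiniteGrp.{0} → Homology}
    (hN : ∀ (t : ℕ) (V : FiniteGrp.{0}) (Y : BSS), Y.IsFin → ¬ (B t V).Acyclic Y →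
      ∃ j, ¬ (K j).Acyclic Y ∧ ∀ A : FiniteGrp.{0}, IsPGroup p A → IsMulCommutative A →
        Group.rank A ≤ j → ¬ (T t).Dead (.of (V × A)))
    (hR : ∀ W : FiniteGrp.{0}, IsPGroup p W → ∀ (S : GCx W) (r : ℕ), S.IsFin →
      (∀ V : Subgroup W, V ≠ ⊥ → ∀ t < r, FixAcyclic (B t (.of V)) S V) → Attachable K r S)
    (G : FiniteGrp.{0}) (H L : Subgroup G) (m n : ℕ) (h6 : IsPGroup p L ∨ PLocal p K) :
    Forces (K m) (K n) H L ↔
      ∃ g s, n + s ≤ m ∧ PChain p (H.map (MulAut.conj g).toMonoidHom) L s := by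
  constructor
  · intro h
    by_contra hcon
    push Not at hcon
    obtain ⟨X, hX, h1, h2⟩ := exists_test hab halive hN hR G L h6 n
    refine h1 (h X hX (h2 H m fun g s hs => ?_))
    by_contra h3
    exact hcon g s (by omega) hs
  · rintro ⟨g, s, hs, h⟩
    exact forces_of_chain hab H L m n s g hs h

/-- The chromatic types of the fixed points of finite complexes. -/
theorem type_iff {B : ℕ → FiniteGrp.{0} → Homology}
    (hN : ∀ (t : ℕ) (V : FiniteGrp.{0}) (Y : BSS), Y.IsFin → ¬ (B t V).Acyclic Y →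
      ∃ j, ¬ (K j).Acyclic Y ∧ ∀ A : FiniteGrp.{0}, IsPGroup p A → IsMulCommutative A →
        Group.rank A ≤ j → ¬ (T t).Dead (.of (V × A)))
    (hR : ∀ W : FiniteGrp.{0}, IsPGroup p W → ∀ (S : GCx W) (r : ℕ), S.IsFin →
      (∀ V : Subgroup W, V ≠ ⊥ → ∀ t < r, FixAcyclic (B t (.of V)) S V) → Attachable K r S)
    (G : FiniteGrp.{0}) (h6 : IsPGroup p G ∨ PLocal p K) (τ : Subgroup G → ℕ∞) :
    (∃ X : GCx G, X.IsFin ∧ IsType K X τ) ↔
      ∀ (H L : Subgroup G) g s, PChain p (H.map (MulAut.conj g).toMonoidHom) L s →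
        τ H ≤ τ L + s := by
  constructor
  · rintro ⟨X, hX, hτ⟩ H L g s hs
    by_cases hL : τ L = ⊤
    · rw [hL, top_add]
      exact le_top
    obtain ⟨n, hn⟩ := ENat.ne_top_iff_exists.1 hL
    rw [← hn, ← not_lt]
    intro h1
    have h2 : ¬ FixAcyclic (K n) X L := by
      rw [hτ, ← hn]
      exact lt_irrefl _
    refine h2 (forces_of_chain hab H L (n + s) n s g le_rfl hs X hX ((hτ _ _).2 ?_))
    push_cast
    exact h1
  · intro hτ
    have key : ∀ L : Subgroup G, ∃ X : GCx G, X.IsFin ∧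
        (∀ n : ℕ, (n : ℕ∞) = τ L → ¬ FixAcyclic (K n) X L) ∧
        ∀ (H : Subgroup G) (m : ℕ), (m : ℕ∞) < τ H → FixAcyclic (K m) X H := by
      intro L
      by_cases hL : τ L = ⊤
      · refine ⟨trivG G ptBSS, ⟨fun n => (inferInstance : Finite Unit), 0, fun n x =>
          ⟨0, le_rfl, ⟨fun _ => 0, fun _ _ _ => le_rfl⟩, (), rfl⟩⟩, ?_, ?_⟩
        · intro n hn
          rw [hL] at hn
          exact absurd hn (ENat.coe_ne_top n)
        · intro H m _
          exact (fixAcyclic_iffF _ (isFixF_trivG G ptBSS H)).2 (acyclic_ptBSS _)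
      · obtain ⟨n, hn⟩ := ENat.ne_top_iff_exists.1 hL
        obtain ⟨X, hX, h1, h2⟩ := exists_test hab halive hN hR G L
          (h6.imp (fun h => h.to_subgroup L) id) n
        refine ⟨X, hX, ?_, ?_⟩
        · intro n' hn'
          rw [← hn, Nat.cast_inj] at hn'
          rw [hn']
          exact h1
        · intro H m hm
          refine h2 H m fun g s hs => ?_
          have h3 := lt_of_lt_of_le hm (hτ H L g s hs)
          rw [← hn] at h3
          exact_mod_cast h3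
    choose X hX h1 h2 using key
    have : Finite (Subgroup G) := inferInstance
    refine ⟨wedgeG (Subgroup G) X, wedgeG_isFin X hX, fun H m => ⟨fun h => ?_, fun h =>
      wedgeG_acyclic (K m) X H fun L => h2 L H m h⟩⟩
    by_contra h3
    rw [not_lt] at h3
    have h4 : τ H ≠ ⊤ := fun h => by
      rw [h] at h3
      exact absurd (top_le_iff.1 h3) (ENat.coe_ne_top m)
    obtain ⟨n, hn⟩ := ENat.ne_top_iff_exists.1 h4
    rw [← hn, Nat.cast_le] at h3
    exact h1 H n hn (fix_mono hab (X H) (hX H) H h3 (wedgeG_retract (K m) X H H h))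

end

end Vale.Agent.P241.F
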