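import Vale.Agent.P241.Sp.Smash
import Vale.Agent.P241.Sp.Defs

set_option linter.all false
set_option autoImplicit false

open CategoryTheory MonoidalCategory CartesianMonoidalCategory Simplicial Opposite

namespace Vale.Agent.P241.F

/-- The rotation of the Moore space. -/
def mooreAct (q : ℕ) (g : Multiplicative (ZMod q)) : Map (Moore q) (Moore q) where
  f n := Quot.map (fun x => (x.1 + Multiplicative.toAdd g, x.2)) (by
    rintro x y (⟨h1, h2, h3⟩ | ⟨h1, h2⟩)
    · exact Or.inl ⟨by rw [h1]; exact add_right_comm _ _ _, h2, h3⟩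
    · exact Or.inr ⟨h1, h2⟩)
  f_pt n := Quot.sound (Or.inr ⟨fun k => by
    change (0 : Fin 3) ≠ 2
    decide, rfl⟩)
  f_op a x := by
    induction x using Quot.ind
    rfl

/-- The Moore space with its rotation. -/
def mooreG (q : ℕ) : Lite.GCx (Multiplicative (ZMod q)) where
  toBSS := (Moore q).toL
  act g := (mooreAct q g).toL
  act_one n x := by
    induction x using Quot.ind with
    | _ x =>
    change Quot.mk _ _ = Quot.mk _ _
    congr 1
    exact Prod.ext (add_zero _) rfl
  act_mul g h n x := by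
    induction x using Quot.ind with
    | _ x =>
    change Quot.mk _ _ = Quot.mk _ _
    congr 1
    refine Prod.ext ?_ rfl
    change x.1 + (Multiplicative.toAdd g + Multiplicative.toAdd h) =
      x.1 + Multiplicative.toAdd h + Multiplicative.toAdd g
    abel

theorem mooreG_isFin (q : ℕ) [NeZero q] : (mooreG q).IsFin := by
  refine ⟨fun n => ?_, 2, fun n x => ?_⟩
  · have h1 : Finite (Fin (n + 1) →o Fin 3) :=
      Finite.of_injective (fun f => (f : Fin (n + 1) → Fin 3)) DFunLike.coe_injective
    have h2 : Finite (ZMod q × (Fin (n + 1) →o Fin 3)) := inferInstance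
    exact Finite.of_surjective (Quot.mk (mooreRel q n)) Quot.mk_surjective
  · obtain ⟨x, rfl⟩ := Quot.exists_rep x
    exact ⟨2, le_rfl, x.2, Quot.mk _ (x.1, OrderHom.id), rfl⟩

/-- Being the centre. -/
def isN {q n : ℕ} : Quot (mooreRel q n) → Prop :=
  Quot.lift (fun x => ∀ k, x.2 k = 2) (by
    rintro x y (⟨_, h2, h3⟩ | ⟨_, h2⟩)
    · refine propext ⟨fun h k => ?_, fun h k => ?_⟩
      · rw [h3 k, h k]
        decide
      · have h4 := h3 k
        rw [h k] at h4
        have h5 := h2 k
        generalize x.2 k = t at h4 h5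
        fin_cases t
        · exact absurd rfl h5
        · simp at h4
        · rfl
    · simp only [h2])

/-- The first vertex of a simplex reaching the centre. -/
noncomputable def lab {q n : ℕ} : Quot (mooreRel q n) → Option (ZMod q) := by
  classical
  exact Quot.lift (fun x => if (∃ k, x.2 k = 2) ∧ x.2 0 ≠ 2 then
      some (x.1 + if x.2 0 = 1 then 1 else 0) else none) (by
    rintro x y (⟨h1, h2, h3⟩ | ⟨h1, h2⟩)
    · have key : ∀ k, (x.2 k = 2 ↔ y.2 k = 2) := by
        intro k
        rw [h3 k]
        have h5 := h2 k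
        generalize x.2 k = t at h5
        fin_cases t
        · exact absurd rfl h5
        · simp
        · simp
      by_cases h4 : (∃ k, x.2 k = 2) ∧ x.2 0 ≠ 2
      · have h5 : (∃ k, y.2 k = 2) ∧ y.2 0 ≠ 2 :=
          ⟨h4.1.imp fun k hk => (key k).1 hk, fun h => h4.2 ((key 0).2 h)⟩
        rw [if_pos h4, if_pos h5]
        have h6 : x.2 0 = 1 := by
          have h7 := h2 0
          have h8 := h4.2
          generalize x.2 0 = t at h7 h8
          fin_cases t
          · exact absurd rfl h7
          · rfl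
          · exact absurd rfl h8
        have h7 : y.2 0 ≠ 1 := by
          rw [h3 0, h6]
          decide
        rw [if_pos h6, if_neg h7, h1, add_zero]
      · have h5 : ¬ ((∃ k, y.2 k = 2) ∧ y.2 0 ≠ 2) := fun h =>
          h4 ⟨h.1.imp fun k hk => (key k).2 hk, fun h' => h.2 ((key 0).1 h')⟩
        rw [if_neg h4, if_neg h5]
    · have h3 : ¬ ((∃ k, x.2 k = 2) ∧ x.2 0 ≠ 2) := fun h => h1 _ h.1.choose_spec
      have h4 : ¬ ((∃ k, y.2 k = 2) ∧ y.2 0 ≠ 2) := fun h =>
        h1 h.1.choose (by rw [h2]; exact h.1.choose_spec)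
      rw [if_neg h3, if_neg h4])

theorem lab_mk {q n : ℕ} (i : ZMod q) (b : Fin (n + 1) →o Fin 3) (h1 : ∃ k, b k = 2)
    (h2 : b 0 ≠ 2) :
    lab (Quot.mk (mooreRel q n) (i, b)) = some (i + if b 0 = 1 then 1 else 0) := by
  have h3 : (∃ k, b k = 2) ∧ b 0 ≠ 2 := ⟨h1, h2⟩
  exact if_pos h3

/-- The centre. -/
def ctr (q n : ℕ) : Quot (mooreRel q n) := Quot.mk _ (0, OrderHom.const _ 2)

theorem mk_const (q n : ℕ) [NeZero q] (i : ZMod q) :
    (Quot.mk (mooreRel q n) (i, OrderHom.const _ 2)) = ctr q n := by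
  have key : ∀ j : ℕ, (Quot.mk (mooreRel q n) ((j : ZMod q), OrderHom.const _ 2)) = ctr q n := by
    intro j
    induction j with
    | zero =>
      rw [Nat.cast_zero]
      rfl
    | succ j ih =>
      rw [← ih]
      have h : mooreRel q n ((j : ZMod q), OrderHom.const _ 2)
          (((j + 1 : ℕ) : ZMod q), OrderHom.const _ 2) := ?_
      · exact (Quot.sound h).symm
      refine Or.inl ⟨?_, ?_, ?_⟩
      · push_cast
        rfl
      · intro k
        change (2 : Fin 3) ≠ 0
        decide
      · intro k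
        change (2 : Fin 3) = if (2 : Fin 3) = 1 then 0 else 2
        decide
  have h := key i.val
  rwa [ZMod.natCast_zmod_val] at h

theorem isN_ctr (q n : ℕ) : isN (ctr q n) := fun k => rfl

theorem eq_ctr {q n : ℕ} [NeZero q] {z : Quot (mooreRel q n)} (h : isN z) : z = ctr q n := by
  obtain ⟨⟨i, b⟩, rfl⟩ := Quot.exists_rep z
  have h1 : b = OrderHom.const _ 2 := by
    ext k
    exact congrArg Fin.val (h k)
  rw [h1]
  exact mk_const q n i

/-- The pair of the Moore space. -/
noncomputable def mooreP (q : ℕ) [NeZero q] : GPair (Multiplicative (ZMod q)) :=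
  Lite.toPair (mooreG q) (mooreG_isFin q)

theorem mooreP_split (q : ℕ) [NeZero q] (H : Subgroup (Multiplicative (ZMod q))) (hH : H ≠ ⊥) :
    Split (mooreP q) H (fun n => (ctr q n.unop.len : (mooreP q).X.obj n)) := by
  have hN : ∀ n : SimplexCategoryᵒᵖ, (ctr q n.unop.len : (mooreP q).X.obj n) ∈
      ((mooreP q).fix H).obj n := by
    intro n g _
    change Quot.mk _ _ = _
    exact mk_const q _ _
  refine ⟨hN, ?_, ?_⟩
  · intro n h
    have h1 : ctr q n.unop.len = Quot.mk _ (0, OrderHom.const _ 0) := h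
    have h2 := isN_ctr q n.unop.len
    rw [h1] at h2
    have h3 : (0 : Fin 3) = 2 := h2 0
    exact absurd h3 (by decide)
  · intro n m i x hx
    constructor
    · intro h
      obtain ⟨⟨j, b⟩, rfl⟩ := Quot.exists_rep x
      have h1 : isN (Quot.mk (mooreRel q m.unop.len) (j, b.comp (Lite.opOf i))) := by
        have h2 : (Quot.mk (mooreRel q m.unop.len) (j, b.comp (Lite.opOf i))) =
          ctr q m.unop.len := h
        rw [h2]
        exact isN_ctr q _
      have h2 : ∃ k, b k = 2 := ⟨_, h1 0⟩
      by_cases h3 : b 0 = 2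
      · apply eq_ctr
        intro k
        have h4 : b 0 ≤ b k := b.monotone (Fin.zero_le k)
        rw [h3] at h4
        exact le_antisymm (Fin.le_last (n := 2) _) h4
      · exfalso
        apply hH
        rw [Subgroup.eq_bot_iff_forall]
        intro g hg
        have h4 : (Quot.mk (mooreRel q n.unop.len) (j + Multiplicative.toAdd g, b)) =
          Quot.mk (mooreRel q n.unop.len) (j, b) := hx g hg
        have h5 := congrArg lab h4
        rw [lab_mk _ _ h2 h3, lab_mk _ _ h2 h3] at h5
        have h6 := add_right_cancel (Option.some_inj.1 h5)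
        have h7 : Multiplicative.toAdd g = 0 := by
          rwa [add_eq_left] at h6
        exact h7
    · rintro rfl
      rfl

theorem mooreP_fixed_bot (E : Homology) (q : ℕ) [NeZero q] (h : E.Acyclic (Moore q)) :
    Lite.cls E.toL ((mooreP q).fixed ⊥) := by
  refine (Lite.fixAcyclic_toPair E.toL (mooreG q) (mooreG_isFin q) ⊥).1 ?_
  refine (Lite.fixAcyclic_iff (X := mooreG q) (Y := (mooreG q).toBSS) (H := ⊥) E.toL
    (i := ⟨fun x => x, fun _ => rfl, fun _ _ => rfl⟩) ?_).2 h
  intro n
  refine ⟨fun a b h => h, fun x => ⟨fun _ => ⟨x, rfl⟩, fun _ g hg => ?_⟩⟩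
  rw [Subgroup.mem_bot.1 hg]
  exact (mooreG q).act_one n x

end Vale.Agent.P241.F
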