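import Vale.Agent.P241.Bdl.B2

set_option linter.all false
set_option autoImplicit false

open CategoryTheory MonoidalCategory CartesianMonoidalCategory Simplicial Opposite

namespace Vale.Agent.P241

open FinPair

variable {G : Type} [Group G]

/-- The smash product of `G`-pairs. -/
def gsmash (P Q : GPair G) : GPair G where
  X := P.X ⊗ Q.X
  A := P.A.unionProd Q.A
  fin := inferInstance
  act :=
    { toFun := fun g =>
        { app n := ↾fun x => ((P.act g).app n x.1, (Q.act g).app n x.2)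
          naturality n m i := by
            ext x
            have h1 := NatTrans.naturality_apply (P.act g) i (show P.X.obj n from x.1)
            have h2 := NatTrans.naturality_apply (Q.act g) i (show Q.X.obj n from x.2)
            exact Prod.ext h1 h2 }
      map_one' := by
        refine NatTrans.ext (funext fun n => ?_)
        ext x
        exact Prod.ext (P.act_one n x.1) (Q.act_one n x.2)
      map_mul' := fun g h => by
        refine NatTrans.ext (funext fun n => ?_)
        ext x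
        exact Prod.ext (P.act_mul g h n x.1) (Q.act_mul g h n x.2) }
  stable g n x hx := by
    refine (SSet.Subcomplex.mem_unionProd_iff _ _ _).2 ?_
    exact ((SSet.Subcomplex.mem_unionProd_iff _ _ _).1 hx).imp
      (fun h => Q.stable g n h) (fun h => P.stable g n h)

lemma mem_gsmash (P Q : GPair G) {n : SimplexCategoryᵒᵖ} (x : (P.X ⊗ Q.X).obj n) :
    x ∈ (gsmash P Q).A.obj n ↔ x.2 ∈ Q.A.obj n ∨ x.1 ∈ P.A.obj n :=
  SSet.Subcomplex.mem_unionProd_iff _ _ _

/-- Fixed points of smash products. -/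
def gsmashFixed (P Q : GPair G) (H : Subgroup G) :
    smash (P.fixed H) (Q.fixed H) ⟶ (gsmash P Q).fixed H :=
  ⟨SSet.Subcomplex.lift ((P.fix H).ι ⊗ₘ (Q.fix H).ι) (by
    rintro n _ ⟨x, rfl⟩ h hh
    exact Prod.ext (x.1.2 h hh) (x.2.2 h hh)), fun n x hx => by
    refine (mem_gsmash P Q _).2 ?_
    exact (mem_smash _).1 hx⟩

lemma isRelIso_gsmashFixed (P Q : GPair G) (H : Subgroup G) :
    IsRelIso (gsmashFixed P Q H) := by
  refine IsRelIso.intro _ ?_ ?_ ?_
  · intro n x hx hx'
    exact hx ((mem_smash _).2 ((mem_gsmash P Q _).1 hx'))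
  · rintro n ⟨x, y⟩ ⟨x', y'⟩ _ _ h
    have h0 := congrArg Subtype.val h
    have h1 : x.1 = x'.1 := congrArg Prod.fst h0
    have h2 : y.1 = y'.1 := congrArg Prod.snd h0
    exact Prod.ext (Subtype.ext h1) (Subtype.ext h2)
  · rintro n ⟨⟨x, y⟩, hxy⟩ hx
    refine ⟨(⟨x, fun h hh => congrArg Prod.fst (hxy h hh)⟩,
      ⟨y, fun h hh => congrArg Prod.snd (hxy h hh)⟩), fun h => hx ?_, rfl⟩
    exact (mem_gsmash P Q _).2 ((mem_smash _).1 h)

/-- The swap of a smash product. -/
def smashSwap (P Q : FinPair) : smash P Q ⟶ smash Q P :=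
  ⟨{ app n := ↾fun x => (x.2, x.1)
     naturality _ _ _ := rfl }, fun n x hx => by
    rcases (mem_smash _).1 hx with h | h
    · exact (mem_smash _).2 (Or.inr h)
    · exact (mem_smash _).2 (Or.inl h)⟩

lemma isRelIso_smashSwap (P Q : FinPair) : IsRelIso (smashSwap P Q) := by
  refine IsRelIso.intro _ ?_ ?_ ?_
  · intro n x hx hx'
    rcases (mem_smash _).1 hx' with h | h
    · exact hx ((mem_smash _).2 (Or.inr h))
    · exact hx ((mem_smash _).2 (Or.inl h))
  · rintro n ⟨x, y⟩ ⟨x', y'⟩ _ _ h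
    have h1 : y = y' := congrArg Prod.fst h
    have h2 : x = x' := congrArg Prod.snd h
    exact Prod.ext h2 h1
  · rintro n ⟨x, y⟩ hx
    refine ⟨(y, x), fun h => hx ?_, rfl⟩
    rcases (mem_smash _).1 h with h | h
    · exact (mem_smash _).2 (Or.inr h)
    · exact (mem_smash _).2 (Or.inl h)

variable {C : FinPair → Prop}

lemma AcClass.gsmash_left (hC : AcClass C) (P Q : GPair G) (H : Subgroup G)
    (h : C (P.fixed H)) : C ((gsmash P Q).fixed H) :=
  (hC.relIso _ (isRelIso_gsmashFixed P Q H)).1 (hC.smash_mem _ h _)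

lemma AcClass.gsmash_right (hC : AcClass C) (P Q : GPair G) (H : Subgroup G)
    (h : C (Q.fixed H)) : C ((gsmash P Q).fixed H) :=
  (hC.relIso _ (isRelIso_gsmashFixed P Q H)).1
    ((hC.relIso _ (isRelIso_smashSwap (Q.fixed H) (P.fixed H))).1 (hC.smash_mem _ h _))

/-- `e` is an isolated point of the `H`-fixed points, outside of the subcomplex. -/
def Split (Q : GPair G) (H : Subgroup G) (e : ∀ n, Q.X.obj n) : Prop :=
  (∀ n, e n ∈ (Q.fix H).obj n) ∧ (∀ n, e n ∉ Q.A.obj n) ∧
    ∀ {n m : SimplexCategoryᵒᵖ} (i : n ⟶ m), ∀ x ∈ (Q.fix H).obj n,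
      (Q.X.map i x = e m ↔ x = e n)

lemma Split.smashG {P Q : GPair G} {H : Subgroup G} {e : ∀ n, P.X.obj n} {e' : ∀ n, Q.X.obj n}
    (h : Split P H e) (h' : Split Q H e') :
    Split (gsmash P Q) H (fun n => ((e n, e' n) : (P.X ⊗ Q.X).obj n)) := by
  refine ⟨fun n a ha => Prod.ext (h.1 n a ha) (h'.1 n a ha), fun n hn => ?_, ?_⟩
  · rcases (mem_gsmash P Q _).1 hn with h1 | h1
    · exact h'.2.1 n h1
    · exact h.2.1 n h1
  · rintro n m i ⟨x, y⟩ hxy
    have hx : x ∈ (P.fix H).obj n := fun a ha => congrArg Prod.fst (hxy a ha)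
    have hy : y ∈ (Q.fix H).obj n := fun a ha => congrArg Prod.snd (hxy a ha)
    constructor
    · intro h1
      have h2 : P.X.map i x = e m := congrArg Prod.fst h1
      have h3 : Q.X.map i y = e' m := congrArg Prod.snd h1
      exact Prod.ext ((h.2.2 i x hx).1 h2) ((h'.2.2 i y hy).1 h3)
    · intro h1
      have h2 : x = e n := congrArg Prod.fst h1
      have h3 : y = e' n := congrArg Prod.snd h1
      exact Prod.ext ((h.2.2 i x hx).2 h2) ((h'.2.2 i y hy).2 h3)

lemma Split.mapE {Q : GPair G} {H : Subgroup G} {e : ∀ n, Q.X.obj n} (h : Split Q H e)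
    {n m : SimplexCategoryᵒᵖ} (i : n ⟶ m) : Q.X.map i (e n) = e m :=
  (h.2.2 i (e n) (h.1 n)).2 rfl

/-- The section `x ↦ (x, e)`. -/
def splitSec (P : GPair G) {Q : GPair G} {H : Subgroup G} {e : ∀ n, Q.X.obj n}
    (h : Split Q H e) : (P.fix H).toSSet ⟶ ((gsmash P Q).fix H).toSSet where
  app n := ↾fun x => ⟨(x.1, e n), fun a ha => Prod.ext (x.2 a ha) (h.1 n a ha)⟩
  naturality n m i := by
    ext x
    exact Subtype.ext (Prod.ext rfl (h.mapE i).symm)

lemma splitSec_le (P : GPair G) {Q : GPair G} {H : Subgroup G} {e : ∀ n, Q.X.obj n}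
    (h : Split Q H e) : P.A.preimage (P.fix H).ι ≤
      ((gsmash P Q).A.preimage ((gsmash P Q).fix H).ι).preimage (splitSec P h) := by
  intro n x hx
  exact (mem_gsmash P Q _).2 (Or.inr hx)

open Classical in
/-- The retraction `(x, e) ↦ x`. -/
noncomputable def splitRetFun (P : GPair G) {Q : GPair G} {H : Subgroup G} (e : ∀ n, Q.X.obj n)
    {n : ℕ} (x : ((gsmash P Q).fix H).toSSet.obj (op ⦋n⦌)) :
    (Lite.collapse (P.fix H).toSSet (P.A.preimage (P.fix H).ι)).S n :=
  if x.1.2 = e (op ⦋n⦌) then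
    Lite.pr (P.A.preimage (P.fix H).ι)
      (⟨x.1.1, fun a ha => congrArg Prod.fst (x.2 a ha)⟩ : (P.fix H).toSSet.obj (op ⦋n⦌))
  else (Lite.collapse (P.fix H).toSSet (P.A.preimage (P.fix H).ι)).pt n

lemma splitRet_aux1 (P : GPair G) {Q : GPair G} {H : Subgroup G} {e : ∀ n, Q.X.obj n}
    (h : Split Q H e) {n : ℕ} (x : ((gsmash P Q).fix H).toSSet.obj (op ⦋n⦌))
    (hx : x ∈ ((gsmash P Q).A.preimage ((gsmash P Q).fix H).ι).obj (op ⦋n⦌)) :
    splitRetFun P e x = (Lite.collapse (P.fix H).toSSet (P.A.preimage (P.fix H).ι)).pt n := by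
  unfold splitRetFun
  split_ifs with h1
  · refine Lite.pr_eq_pt.2 ?_
    rcases (mem_gsmash P Q _).1 hx with h2 | h2
    · exact absurd (h1 ▸ h2) (h.2.1 _)
    · exact h2
  · rfl

lemma splitRet_aux2 (P : GPair G) {Q : GPair G} {H : Subgroup G} {e : ∀ n, Q.X.obj n}
    (h : Split Q H e) {m n : ℕ} (a : Lite.Op m n)
    (x : ((gsmash P Q).fix H).toSSet.obj (op ⦋n⦌)) :
    splitRetFun P e (((gsmash P Q).fix H).toSSet.map (Lite.mor a).op x) =
      (Lite.collapse (P.fix H).toSSet (P.A.preimage (P.fix H).ι)).op a (splitRetFun P e x) := by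
  have hy : x.1.2 ∈ (Q.fix H).obj (op ⦋n⦌) := fun g hg => congrArg Prod.snd (x.2 g hg)
  have h3 := h.2.2 (Lite.mor a).op x.1.2 hy
  have h4 : (((gsmash P Q).fix H).toSSet.map (Lite.mor a).op x).1.2 =
    Q.X.map (Lite.mor a).op x.1.2 := rfl
  unfold splitRetFun
  by_cases h1 : x.1.2 = e (op ⦋n⦌)
  · rw [if_pos h1, if_pos (h4.trans (h3.2 h1))]
    exact (Lite.op_pr (A := P.A.preimage (P.fix H).ι) a
      (⟨x.1.1, fun a ha => congrArg Prod.fst (x.2 a ha)⟩ :
        (P.fix H).toSSet.obj (op ⦋n⦌))).symm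
  · rw [if_neg h1, if_neg (fun h5 => h1 (h3.1 (h4.symm.trans h5))), Lite.BSS.op_pt]

/-- Smashing with a split complex detects acyclicity. -/
theorem Split.acyclic (E : Lite.Homology) (P : GPair G) {Q : GPair G} {H : Subgroup G}
    {e : ∀ n, Q.X.obj n} (h : Split Q H e) (hE : Lite.cls E ((gsmash P Q).fixed H)) :
    Lite.cls E (P.fixed H) := by
  refine Lite.Homology.Acyclic.of_retract E
    (Lite.cmap (splitSec P h) (splitSec_le P h))
    (Lite.lift' _ (splitRetFun P e) (splitRet_aux1 P h) (splitRet_aux2 P h)) ?_ hE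
  intro j
  funext z
  apply E.map_id
  intro n z
  rcases Lite.eq_pr z with rfl | ⟨x, hx, rfl⟩
  · exact Lite.Map.f_pt _ n
  · have h1 := Lite.cmap_pr (splitSec P h) (splitSec_le P h) x
    have h2 := Lite.lift'_pr (A := (gsmash P Q).A.preimage ((gsmash P Q).fix H).ι) _
      (splitRetFun P e) (splitRet_aux1 P h) (splitRet_aux2 P h) ((splitSec P h).app _ x)
    refine (congrArg (Lite.lift' _ (splitRetFun P e) (splitRet_aux1 P h) (splitRet_aux2 P h)).f
      h1).trans (h2.trans ?_)
    unfold splitRetFun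
    exact if_pos rfl

/-- The unit for the smash product. -/
def unitPair (G : Type) [Group G] : GPair G where
  X := Δ[0]
  A := ⊥
  fin := inferInstance
  act := 1
  stable _ := le_rfl

lemma split_unitPair (H : Subgroup G) :
    Split (unitPair G) H (fun n => (SSet.const (SSet.stdSimplex.obj₀Equiv.symm 0) :
      (Δ[0] : SSet.{0}) ⟶ Δ[0]).app n ((SSet.stdSimplex.const 0 0 n : (Δ[0] : SSet.{0}).obj n))) := by
  refine ⟨fun n a _ => rfl, fun n h => h, ?_⟩
  intro n m i x _
  exact ⟨fun _ => eq_of_delta0 _ _, fun _ => eq_of_delta0 _ _⟩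

/-- Norms of split pairs. -/
theorem Split.normG [Finite G] {K : Subgroup G} {P : GPair K} {e : ∀ n, P.X.obj n}
    (he : ∀ n (k : K), (P.act k).app n (e n) = e n) (H : Subgroup G)
    (h : ∀ g : G, Split P ((H.map (MulAut.conj g).toMonoidHom).subgroupOf K) e) :
    Split (norm K P) H (fun n => (⟨fun _ => e n, fun k _ => (he n k).symm⟩ :
      (equivMaps P G).toSSet.obj n)) := by
  refine ⟨fun n a _ => rfl, ?_, ?_⟩
  · rintro n ⟨s, hs⟩
    exact (h 1).2.1 n hs
  · intro n m i f hf
    constructor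
    · intro h1
      apply Subtype.ext
      funext g
      have h2 : P.X.map i (f.1 g) = e m := congrFun (congrArg Subtype.val h1) g
      refine ((h g).2.2 i (f.1 g) ?_).1 h2
      intro k hk
      obtain ⟨a, ha, hak⟩ := hk
      have h3 : g * a * g⁻¹ = (k : G) := hak
      have h4 : f.1 (g * a) = f.1 g := congrFun (congrArg Subtype.val (hf a ha)) g
      have h5 : f.1 ((k : G) * g) = (P.act k).app n (f.1 g) := f.2 k g
      rw [← h5, ← h3, ← h4]
      congr 1
      group
    · intro h1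
      subst h1
      apply Subtype.ext
      funext g
      exact (h 1).mapE i

lemma Split.comapG {M K : Type} [Group M] [Group K] (φ : M →* K) {P : GPair K} {L : Subgroup M}
    {e : ∀ n, P.X.obj n} (h : Split P (L.map φ) e) : Split (P.comap φ) L e := by
  have h0 : (P.comap φ).fix L = P.fix (L.map φ) := P.fix_comap φ L
  refine ⟨fun n => h0 ▸ h.1 n, h.2.1, fun i x hx => h.2.2 i x (h0 ▸ hx)⟩

end Vale.Agent.P241
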